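import Mathlib

open Finset
open scoped Pointwise

namespace P064

variable {Γ X : Type*} [Group Γ] [Fintype Γ] [MulAction Γ X] [DecidableEq X]

/-- The fraction of group elements `g` with `g • U ⊆ G`. -/
noncomputable def fr (Γ : Type*) {X : Type*} [Group Γ] [Fintype Γ] [MulAction Γ X]
    [DecidableEq X] (G U : Finset X) : ℝ :=
  (∑ g : Γ, if g • U ⊆ G then (1 : ℝ) else 0) / Fintype.card Γ

lemma fr_nonneg (G U : Finset X) : 0 ≤ fr Γ G U := by
  unfold fr
  apply div_nonneg
  · exact sum_nonneg (fun _ _ => by split_ifs <;> norm_num)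
  · positivity

lemma fr_empty (G : Finset X) : fr Γ G ∅ = 1 := by
  unfold fr
  have h : (Fintype.card Γ : ℝ) ≠ 0 := by
    exact_mod_cast Fintype.card_ne_zero
  simp [h]

lemma fr_smul (G U : Finset X) (d : Γ) : fr Γ G (d • U) = fr Γ G U := by
  unfold fr
  congr 1
  apply Fintype.sum_equiv (Equiv.mulRight d)
  intro g
  simp [mul_smul]

lemma fr_sq (G F : Finset X) :
    fr Γ G F ^ 2 = (∑ d : Γ, fr Γ G (F ∪ d • F)) / Fintype.card Γ := by
  have h : (Fintype.card Γ : ℝ) ≠ 0 := by
    exact_mod_cast Fintype.card_ne_zero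
  have key : (∑ g : Γ, if g • F ⊆ G then (1 : ℝ) else 0) ^ 2
      = ∑ d : Γ, ∑ g : Γ, if g • (F ∪ d • F) ⊆ G then (1 : ℝ) else 0 := by
    rw [sq, Finset.sum_mul_sum]
    have : ∀ g : Γ, (∑ d : Γ, (if g • F ⊆ G then (1 : ℝ) else 0) * (if d • F ⊆ G then (1 : ℝ) else 0))
        = ∑ d : Γ, if g • (F ∪ d • F) ⊆ G then (1 : ℝ) else 0 := by
      intro g
      symm
      apply Fintype.sum_equiv (Equiv.mulLeft g)
      intro d
      simp only [Equiv.coe_mulLeft, Finset.smul_finset_union, Finset.union_subset_iff, mul_smul]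
      split_ifs <;> simp_all
    rw [Finset.sum_congr rfl (fun g _ => this g), Finset.sum_comm]
  unfold fr
  rw [div_pow, key, ← Finset.sum_div, div_div, sq]

/-- `R x G` is the maximum over `F ⊆ G` of `fr G F / x ^ |F|`. -/
noncomputable def R (Γ : Type*) {X : Type*} [Group Γ] [Fintype Γ] [MulAction Γ X]
    [DecidableEq X] (x : ℝ) (G : Finset X) : ℝ :=
  G.powerset.sup' (Finset.powerset_nonempty G) (fun F => fr Γ G F / x ^ F.card)

lemma le_R {x : ℝ} {G F : Finset X} (h : F ⊆ G) : fr Γ G F / x ^ F.card ≤ R Γ x G := by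
  unfold R
  exact Finset.le_sup' (f := fun F => fr Γ G F / x ^ F.card) (Finset.mem_powerset.2 h)

lemma exists_R (x : ℝ) (G : Finset X) : ∃ F ⊆ G, R Γ x G = fr Γ G F / x ^ F.card := by
  obtain ⟨F, hF, h⟩ := Finset.exists_mem_eq_sup' (Finset.powerset_nonempty G)
    (fun F => fr Γ G F / x ^ F.card)
  exact ⟨F, Finset.mem_powerset.1 hF, h⟩

lemma one_le_R (x : ℝ) (G : Finset X) : 1 ≤ R Γ x G := by
  have := le_R (Γ := Γ) (x := x) (G := G) (F := ∅) (by simp)
  simpa [fr_empty] using this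

lemma fr_le {x : ℝ} (hx : 0 < x) (G F : Finset X) : fr Γ G F ≤ R Γ x G * x ^ F.card := by
  by_cases h : ∃ g : Γ, g • F ⊆ G
  · obtain ⟨g, hg⟩ := h
    have := le_R (Γ := Γ) (x := x) hg
    rw [fr_smul, Finset.card_smul_finset, div_le_iff₀ (by positivity)] at this
    exact this
  · push Not at h
    have : fr Γ G F = 0 := by
      unfold fr
      rw [Finset.sum_eq_zero]
      · simp
      · intro g _
        simp [h g]
    rw [this]
    have := one_le_R (Γ := Γ) x G
    positivity

lemma R_le_iff {x : ℝ} {G : Finset X} {a : ℝ} :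
    R Γ x G ≤ a ↔ ∀ F ⊆ G, fr Γ G F / x ^ F.card ≤ a := by
  unfold R
  rw [Finset.sup'_le_iff]
  simp only [Finset.mem_powerset]

lemma R_anti {x y : ℝ} (hx : 0 < x) (hxy : x ≤ y) (G : Finset X) : R Γ y G ≤ R Γ x G := by
  rw [R_le_iff]
  intro F hF
  refine le_trans ?_ (le_R hF)
  have := fr_nonneg (Γ := Γ) G F
  gcongr

/-- The pair inequality. -/
lemma pair {x x0 : ℝ} (hx : 0 < x) (hx0 : 0 < x0) (G : Finset X) :
    ∃ F ⊆ G, R Γ x G = fr Γ G F / x ^ F.card ∧
      R Γ x G ≤ R Γ x0 F * (1 + x0 / x) ^ F.card := by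
  obtain ⟨F, hF, hR⟩ := exists_R (Γ := Γ) x G
  refine ⟨F, hF, hR, ?_⟩
  have hc : (0 : ℝ) < Fintype.card Γ := by exact_mod_cast Fintype.card_pos
  have hr : 1 ≤ R Γ x G := one_le_R x G
  set r := R Γ x G with hrdef
  have hfr : fr Γ G F = r * x ^ F.card := by
    rw [hR]; field_simp
  -- step 1
  have h1 : r ^ 2 * x ^ (2 * F.card)
      ≤ (∑ d : Γ, r * (x ^ (2 * F.card) * (1 / x) ^ (F ∩ d • F).card)) / Fintype.card Γ := by
    have : r ^ 2 * x ^ (2 * F.card) = fr Γ G F ^ 2 := by rw [hfr]; ring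
    rw [this, fr_sq]
    gcongr with d _
    refine (fr_le hx G _).trans ?_
    rw [← hrdef]
    have e : (F ∪ d • F).card + (F ∩ d • F).card = 2 * F.card := by
      rw [Finset.card_union_add_card_inter, Finset.card_smul_finset]; ring
    apply le_of_eq
    congr 1
    rw [← e, pow_add, one_div, inv_pow]
    field_simp
  have h2 : r ≤ (∑ d : Γ, (1 / x) ^ (F ∩ d • F).card) / Fintype.card Γ := by
    have e : (∑ d : Γ, r * (x ^ (2 * F.card) * (1 / x) ^ (F ∩ d • F).card)) / Fintype.card Γ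
        = (r * x ^ (2 * F.card)) * ((∑ d : Γ, (1 / x) ^ (F ∩ d • F).card) / Fintype.card Γ) := by
      rw [mul_div_assoc', Finset.mul_sum]
      congr 1
      apply Finset.sum_congr rfl
      intros; ring
    rw [e] at h1
    have hpos : 0 < r * x ^ (2 * F.card) := by positivity
    have : (r * x ^ (2 * F.card)) * r
        ≤ (r * x ^ (2 * F.card)) * ((∑ d : Γ, (1 / x) ^ (F ∩ d • F).card) / Fintype.card Γ) := by
      calc (r * x ^ (2 * F.card)) * r = r ^ 2 * x ^ (2 * F.card) := by ring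
        _ ≤ _ := h1
    exact le_of_mul_le_mul_left this hpos
  -- step 2
  have h3 : ∀ d : Γ, (1 / x) ^ (F ∩ d • F).card
      ≤ ∑ J ∈ F.powerset, if J ⊆ d • F then (1 / x) ^ J.card else 0 := by
    intro d
    have hy : 0 < 1 / x := by positivity
    calc (1 / x) ^ (F ∩ d • F).card ≤ (1 / x + 1) ^ (F ∩ d • F).card := by
          gcongr; linarith
      _ = ∑ J ∈ (F ∩ d • F).powerset, (1 / x) ^ J.card * 1 ^ ((F ∩ d • F).card - J.card) := by
          rw [Finset.sum_pow_mul_eq_add_pow]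
      _ = ∑ J ∈ (F ∩ d • F).powerset, (1 / x) ^ J.card := by simp
      _ = ∑ J ∈ F.powerset, if J ⊆ d • F then (1 / x) ^ J.card else 0 := by
          rw [← Finset.sum_filter]
          apply Finset.sum_congr _ (fun _ _ => rfl)
          ext J
          simp only [Finset.mem_powerset, Finset.mem_filter, Finset.subset_inter_iff]
      _ ≤ _ := le_rfl
  have h4 : ∀ J : Finset X, (∑ d : Γ, if J ⊆ d • F then (1 / x) ^ J.card else 0)
      = (1 / x) ^ J.card * (fr Γ F J * Fintype.card Γ) := by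
    intro J
    unfold fr
    rw [div_mul_cancel₀ _ hc.ne', Finset.mul_sum]
    apply Fintype.sum_equiv (Equiv.inv Γ)
    intro d
    simp only [Equiv.inv_apply, Finset.subset_smul_finset_iff]
    split_ifs <;> simp
  calc r ≤ (∑ d : Γ, (1 / x) ^ (F ∩ d • F).card) / Fintype.card Γ := h2
    _ ≤ (∑ d : Γ, ∑ J ∈ F.powerset, if J ⊆ d • F then (1 / x) ^ J.card else 0)
        / Fintype.card Γ := by
        gcongr with d _
        exact h3 d
    _ = (∑ J ∈ F.powerset, ∑ d : Γ, if J ⊆ d • F then (1 / x) ^ J.card else 0)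
        / Fintype.card Γ := by rw [Finset.sum_comm]
    _ = ∑ J ∈ F.powerset, (1 / x) ^ J.card * fr Γ F J := by
        rw [Finset.sum_congr rfl (fun J _ => h4 J), Finset.sum_div]
        apply Finset.sum_congr rfl
        intros
        field_simp
    _ ≤ ∑ J ∈ F.powerset, (1 / x) ^ J.card * (R Γ x0 F * x0 ^ J.card) := by
        gcongr with J _
        exact fr_le hx0 F J
    _ = R Γ x0 F * ∑ J ∈ F.powerset, (x0 / x) ^ J.card * 1 ^ (F.card - J.card) := by
        rw [Finset.mul_sum]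
        apply Finset.sum_congr rfl
        intros
        rw [div_pow, div_pow]
        simp only [one_pow]
        ring
    _ = R Γ x0 F * (1 + x0 / x) ^ F.card := by
        rw [Finset.sum_pow_mul_eq_add_pow, add_comm]

/-- The number of images of `F` in `G` is at most the number of `|F|`-subsets. -/
lemma fr_le_choose (G F : Finset X) :
    fr Γ G F ≤ ∑ S ∈ G.powersetCard F.card, fr Γ F F := by
  have hc : (0 : ℝ) < Fintype.card Γ := by exact_mod_cast Fintype.card_pos
  have h1 : ∀ g : Γ, (if g • F ⊆ G then (1 : ℝ) else 0)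
      ≤ ∑ S ∈ G.powersetCard F.card, if g • F = S then (1 : ℝ) else 0 := by
    intro g
    split_ifs with h
    · have : g • F ∈ G.powersetCard F.card := by
        rw [Finset.mem_powersetCard]; exact ⟨h, Finset.card_smul_finset _ _⟩
      rw [Finset.sum_ite_eq, if_pos this]
    · exact Finset.sum_nonneg (fun _ _ => by split_ifs <;> norm_num)
  have h2 : ∀ S : Finset X, (∑ g : Γ, if g • F = S then (1 : ℝ) else 0)
      ≤ ∑ g : Γ, if g • F ⊆ F then (1 : ℝ) else 0 := by
    intro S
    by_cases h : ∃ g : Γ, g • F = S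
    · obtain ⟨g0, h0⟩ := h
      apply le_of_eq
      symm
      apply Fintype.sum_equiv (Equiv.mulLeft g0)
      intro g
      have e : (g • F ⊆ F) ↔ (g0 * g) • F = S := by
        rw [← h0, mul_smul]
        constructor
        · intro h
          rw [Finset.eq_of_subset_of_card_le h (by rw [Finset.card_smul_finset])]
        · intro h
          have := smul_left_cancel g0 h
          rw [this]
      by_cases h' : g • F ⊆ F
      · rw [if_pos h', Equiv.coe_mulLeft, if_pos (e.1 h')]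
      · rw [if_neg h', Equiv.coe_mulLeft, if_neg (fun h'' => h' (e.2 h''))]
    · push Not at h
      rw [Finset.sum_eq_zero]
      · exact Finset.sum_nonneg (fun _ _ => by split_ifs <;> norm_num)
      · intro g _; simp [h g]
  unfold fr
  calc (∑ g : Γ, if g • F ⊆ G then (1 : ℝ) else 0) / Fintype.card Γ
      ≤ (∑ g : Γ, ∑ S ∈ G.powersetCard F.card, if g • F = S then (1 : ℝ) else 0)
        / Fintype.card Γ := by
        gcongr with g _
        exact h1 g
    _ = (∑ S ∈ G.powersetCard F.card, ∑ g : Γ, if g • F = S then (1 : ℝ) else 0)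
        / Fintype.card Γ := by rw [Finset.sum_comm]
    _ ≤ (∑ S ∈ G.powersetCard F.card, ∑ g : Γ, if g • F ⊆ F then (1 : ℝ) else 0)
        / Fintype.card Γ := by
        gcongr ?_ / _
        exact Finset.sum_le_sum (fun S _ => h2 S)
    _ = _ := by rw [Finset.sum_div]

/-- `PL H q L η`: for every `G ⊆ H`, `R (L q) G ≤ exp (η |G|)`. -/
def PL (Γ : Type*) {X : Type*} [Group Γ] [Fintype Γ] [MulAction Γ X]
    [DecidableEq X] (H : Finset X) (q L η : ℝ) : Prop :=
  ∀ G ⊆ H, R Γ (L * q) G ≤ Real.exp (η * G.card)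

lemma PL_trivial {H : Finset X} {q : ℝ} (hq : 0 < q)
    (hU : ∀ U ⊆ H, fr Γ U U ≤ q ^ U.card) {L : ℝ} (hL : 0 < L) : PL Γ H q L (1 / L) := by
  intro G hG
  rw [R_le_iff]
  intro F hF
  have hy : 0 < 1 / L := by positivity
  have h1 : fr Γ G F ≤ ∑ S ∈ G.powersetCard F.card, q ^ F.card :=
    (fr_le_choose G F).trans (Finset.sum_le_sum (fun _ _ => hU F (hF.trans hG)))
  calc fr Γ G F / (L * q) ^ F.card
      ≤ (∑ S ∈ G.powersetCard F.card, q ^ F.card) / (L * q) ^ F.card := by gcongr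
    _ = ∑ S ∈ G.powersetCard F.card, (1 / L) ^ S.card := by
        rw [Finset.sum_div]
        apply Finset.sum_congr rfl
        intro S hS
        rw [(Finset.mem_powersetCard.1 hS).2, mul_pow, div_pow]
        field_simp
        simp
    _ ≤ ∑ S ∈ G.powerset, (1 / L) ^ S.card := by
        apply Finset.sum_le_sum_of_subset_of_nonneg
        · intro S hS
          exact Finset.mem_powerset.2 (Finset.mem_powersetCard.1 hS).1
        · intros; positivity
    _ = (1 / L + 1) ^ G.card := by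
        rw [← Finset.sum_pow_mul_eq_add_pow]; simp
    _ ≤ (Real.exp (1 / L)) ^ G.card := by
        gcongr
        exact Real.add_one_le_exp _
    _ = Real.exp (1 / L * G.card) := by
        rw [← Real.exp_nat_mul]; ring_nf

lemma PL_mono {H : Finset X} {q L L' η η' : ℝ} (hq : 0 < q) (hL : 0 < L) (hLL : L ≤ L')
    (hη : η ≤ η') (h : PL Γ H q L η) : PL Γ H q L' η' := by
  intro G hG
  refine (R_anti (by positivity) (by gcongr) G).trans ((h G hG).trans ?_)
  apply Real.exp_le_exp.2
  gcongr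

/-- The halving step. -/
lemma PL_half {H : Finset X} {q L0 η0 L1 L η ε : ℝ} (hq : 0 < q) (hL0 : 0 < L0)
    (hL1 : 0 < L1) (hL : L1 ≤ L)
    (h0 : PL Γ H q L0 η0) (h : PL Γ H q L η) (hε : η0 + L0 / L1 ≤ ε) (hε0 : 0 ≤ ε) :
    PL Γ H q (L * Real.exp ε) (η / 2) := by
  intro G hG
  have hLpos : 0 < L := lt_of_lt_of_le hL1 hL
  have he1 : 1 ≤ Real.exp ε := Real.one_le_exp hε0
  obtain ⟨F, hF, hR, hle⟩ := pair (Γ := Γ) (x := L * Real.exp ε * q) (x0 := L0 * q)
    (by positivity) (by positivity) G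
  set r := R Γ (L * Real.exp ε * q) G with hr
  have hr1 : 1 ≤ r := one_le_R _ _
  -- first bound
  have h1 : r ≤ Real.exp (ε * F.card) := by
    calc r ≤ R Γ (L0 * q) F * (1 + L0 * q / (L * Real.exp ε * q)) ^ F.card := hle
      _ ≤ Real.exp (η0 * F.card) * (1 + L0 / L1) ^ F.card := by
          have e : L0 * q / (L * Real.exp ε * q) ≤ L0 / L1 := by
            rw [mul_div_mul_right _ _ hq.ne']
            apply div_le_div_of_nonneg_left hL0.le hL1
            nlinarith
          gcongr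
          exact h0 F (hF.trans hG)
      _ ≤ Real.exp (η0 * F.card) * (Real.exp (L0 / L1)) ^ F.card := by
          gcongr
          rw [add_comm]
          exact Real.add_one_le_exp _
      _ = Real.exp ((η0 + L0 / L1) * F.card) := by
          rw [← Real.exp_nat_mul, ← Real.exp_add]; ring_nf
      _ ≤ Real.exp (ε * F.card) := by
          apply Real.exp_le_exp.2
          gcongr
  -- second bound
  have h2 : r * Real.exp (ε * F.card) ≤ Real.exp (η * G.card) := by
    have := le_R (Γ := Γ) (x := L * q) hF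
    refine le_trans (le_of_eq ?_) (this.trans (h G hG))
    rw [hR, show L * Real.exp ε * q = (L * q) * Real.exp ε by ring, mul_pow,
      ← Real.exp_nat_mul, show (F.card : ℝ) * ε = ε * F.card by ring]
    have := Real.exp_pos (ε * F.card)
    field_simp
  have h3 : r ^ 2 ≤ Real.exp (η / 2 * G.card) ^ 2 := by
    calc r ^ 2 = r * r := by ring
      _ ≤ r * Real.exp (ε * F.card) := by gcongr
      _ ≤ Real.exp (η * G.card) := h2
      _ = _ := by rw [← Real.exp_nat_mul]; ring_nf
  exact le_of_sq_le_sq h3 (Real.exp_pos _).le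

lemma PL_iter {H : Finset X} {q L0 η0 L1 η ε : ℝ} (hq : 0 < q) (hL0 : 0 < L0)
    (hL1 : 0 < L1) (h0 : PL Γ H q L0 η0) (h : PL Γ H q L1 η) (hε : η0 + L0 / L1 ≤ ε)
    (hε0 : 0 ≤ ε) (m : ℕ) : PL Γ H q (L1 * Real.exp (m * ε)) (η / 2 ^ m) := by
  induction m with
  | zero => simpa using h
  | succ m ih =>
    have hle : L1 ≤ L1 * Real.exp (m * ε) := by
      have : 1 ≤ Real.exp (m * ε) := Real.one_le_exp (by positivity)
      nlinarith
    have := PL_half hq hL0 hL1 hle h0 ih hε hε0
    convert this using 1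
    · push_cast
      rw [mul_assoc, ← Real.exp_add]; ring_nf
    · rw [pow_succ]; field_simp

lemma PL_double {H : Finset X} {q L0 η0 L1 η ε : ℝ} (hq : 0 < q) (hL0 : 0 < L0)
    (hL1 : 0 < L1) (h0 : PL Γ H q L0 η0) (h : PL Γ H q L1 η) (hε : η0 + L0 / L1 ≤ ε)
    (hε0 : 0 < ε) (hη : 0 ≤ η) :
    PL Γ H q (2 * L1) (2 * η * Real.exp (-(Real.log 2 ^ 2 / ε))) := by
  have hlog : 0 < Real.log 2 := Real.log_pos (by norm_num)
  have hm := PL_iter hq hL0 hL1 h0 h hε hε0.le ⌊Real.log 2 / ε⌋₊
  set m := ⌊Real.log 2 / ε⌋₊ with hmdef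
  have hm1 : (m : ℝ) ≤ Real.log 2 / ε := Nat.floor_le (by positivity)
  have hm2 : Real.log 2 / ε < m + 1 := Nat.lt_floor_add_one _
  refine PL_mono hq (by positivity) ?_ ?_ hm
  · have : Real.exp (m * ε) ≤ 2 := by
      calc Real.exp (m * ε) ≤ Real.exp (Real.log 2) := by
            apply Real.exp_le_exp.2
            rwa [le_div_iff₀ hε0] at hm1
        _ = 2 := Real.exp_log (by norm_num)
    nlinarith
  · have h2 : (1 : ℝ) / 2 ^ m ≤ 2 * Real.exp (-(Real.log 2 ^ 2 / ε)) := by
      have e1 : (1 : ℝ) / 2 ^ m = Real.exp (-(m * Real.log 2)) := by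
        rw [Real.exp_neg, Real.exp_nat_mul, Real.exp_log (by norm_num), one_div]
      have e2 : 2 * Real.exp (-(Real.log 2 ^ 2 / ε))
          = Real.exp (Real.log 2 - Real.log 2 ^ 2 / ε) := by
        rw [sub_eq_add_neg, Real.exp_add, Real.exp_log (by norm_num)]
      rw [e1, e2]
      apply Real.exp_le_exp.2
      have : Real.log 2 / ε * Real.log 2 ≤ (m + 1) * Real.log 2 := by gcongr
      have e3 : Real.log 2 ^ 2 / ε = Real.log 2 / ε * Real.log 2 := by ring
      rw [e3]
      linarith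
    calc η / 2 ^ m = η * (1 / 2 ^ m) := by ring
      _ ≤ η * (2 * Real.exp (-(Real.log 2 ^ 2 / ε))) := by gcongr
      _ = _ := by ring

lemma log_two_sq : (12 / 25 : ℝ) ≤ Real.log 2 ^ 2 := by
  have := Real.log_two_gt_d9
  nlinarith

lemma PL_pass1 {H : Finset X} {q : ℝ} (hq : 0 < q)
    (hU : ∀ U ⊆ H, fr Γ U U ≤ q ^ U.card) {L : ℝ} (hL : 2 ≤ L) :
    PL Γ H q (2 * L) (Real.exp (-(6 / 25 * Real.sqrt L))) := by
  have hL0 : 0 < L := by linarith
  have hs : 0 < Real.sqrt L := Real.sqrt_pos.2 hL0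
  have hss : Real.sqrt L * Real.sqrt L = L := Real.mul_self_sqrt hL0.le
  have h1 : PL Γ H q (Real.sqrt L) (1 / Real.sqrt L) := PL_trivial hq hU hs
  have h2 : PL Γ H q L (1 / L) := PL_trivial hq hU hL0
  have h3 := PL_double (ε := 2 / Real.sqrt L) hq hs hL0 h1 h2 (by
    have : Real.sqrt L / L = 1 / Real.sqrt L := by
      rw [div_eq_div_iff hL0.ne' hs.ne', hss]; ring
    rw [this]
    apply le_of_eq; ring) (by positivity) (by positivity)
  refine PL_mono hq (by positivity) le_rfl ?_ h3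
  have e1 : Real.exp (-(Real.log 2 ^ 2 / (2 / Real.sqrt L)))
      ≤ Real.exp (-(6 / 25 * Real.sqrt L)) := by
    apply Real.exp_le_exp.2
    have e : Real.log 2 ^ 2 / (2 / Real.sqrt L) = Real.log 2 ^ 2 / 2 * Real.sqrt L := by
      field_simp
    rw [e]
    have := log_two_sq
    nlinarith
  have e2 : 2 * (1 / L) ≤ 1 := by
    rw [mul_one_div, div_le_one hL0]; exact hL
  calc 2 * (1 / L) * Real.exp (-(Real.log 2 ^ 2 / (2 / Real.sqrt L)))
      ≤ 1 * Real.exp (-(6 / 25 * Real.sqrt L)) := by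
        apply mul_le_mul e2 e1 (Real.exp_pos _).le (by norm_num)
    _ = _ := one_mul _

lemma PL_pass2 {H : Finset X} {q : ℝ} (hq : 0 < q)
    (hU : ∀ U ⊆ H, fr Γ U U ≤ q ^ U.card) {L : ℝ} (hL : 1 ≤ Real.log L) (hL2 : 2 ≤ L) :
    PL Γ H q (2 * L) (Real.exp (-(L / (107 * Real.log L ^ 2)))) := by
  have hL0 : 0 < L := by linarith
  have hl0 : 0 < Real.log L := by linarith
  have h1 : PL Γ H q (2 * (5 * Real.log L) ^ 2) (1 / L) := by
    have h := PL_pass1 (Γ := Γ) hq hU (L := (5 * Real.log L) ^ 2) (by nlinarith)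
    refine PL_mono hq (by positivity) le_rfl ?_ h
    rw [Real.sqrt_sq (by positivity)]
    calc Real.exp (-(6 / 25 * (5 * Real.log L))) ≤ Real.exp (-(Real.log L)) := by
          apply Real.exp_le_exp.2; linarith
      _ = 1 / L := by rw [Real.exp_neg, Real.exp_log hL0, one_div]
  have h2 : PL Γ H q L (1 / L) := PL_trivial hq hU hL0
  have h3 := PL_double (ε := 51 * Real.log L ^ 2 / L) hq (by positivity) hL0 h1 h2 (by
    rw [← add_div]
    gcongr
    nlinarith) (by positivity) (by positivity)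
  refine PL_mono hq (by positivity) le_rfl ?_ h3
  have e1 : Real.exp (-(Real.log 2 ^ 2 / (51 * Real.log L ^ 2 / L)))
      ≤ Real.exp (-(L / (107 * Real.log L ^ 2))) := by
    apply Real.exp_le_exp.2
    have e : Real.log 2 ^ 2 / (51 * Real.log L ^ 2 / L)
        = (107 * Real.log 2 ^ 2 / 51) * (L / (107 * Real.log L ^ 2)) := by
      field_simp
    rw [e]
    have hh := log_two_sq
    have : 0 < L / (107 * Real.log L ^ 2) := by positivity
    nlinarith
  have e2 : 2 * (1 / L) ≤ 1 := by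
    rw [mul_one_div, div_le_one hL0]; exact hL2
  calc 2 * (1 / L) * Real.exp (-(Real.log 2 ^ 2 / (51 * Real.log L ^ 2 / L)))
      ≤ 1 * Real.exp (-(L / (107 * Real.log L ^ 2))) := by
        apply mul_le_mul e2 e1 (Real.exp_pos _).le (by norm_num)
    _ = _ := one_mul _

/-- The core theorem. -/
theorem core {H : Finset X} {q : ℝ} (hq : 0 < q)
    (hU : ∀ U ⊆ H, fr Γ U U ≤ q ^ U.card) {T : ℝ} (hT : 1 ≤ T)
    (hH : (H.card : ℝ) ≤ Real.exp (T - 1)) (F : Finset X) :
    fr Γ H F ≤ (4 * (Real.exp 10 * (T * (1 + Real.log T) ^ 2)) * q) ^ F.card := by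
  have hT0 : 0 < T := by linarith
  have hlT : 0 ≤ Real.log T := Real.log_nonneg hT
  set L := Real.exp 10 * (T * (1 + Real.log T) ^ 2) with hLdef
  have he10 : (10700 : ℝ) ≤ Real.exp 10 := by
    have h1 : (27 / 10 : ℝ) ≤ Real.exp 1 := by
      have := Real.exp_one_gt_d9; linarith
    have h2 : Real.exp 10 = Real.exp 1 ^ 10 := by
      rw [← Real.exp_nat_mul]; norm_num
    rw [h2]
    calc (10700 : ℝ) ≤ (27 / 10) ^ 10 := by norm_num
      _ ≤ _ := by gcongr
  have hT1 : 1 ≤ T * (1 + Real.log T) ^ 2 := by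
    have : 1 ≤ (1 + Real.log T) ^ 2 := by nlinarith
    nlinarith
  have hL0 : 10700 ≤ L := by rw [hLdef]; nlinarith
  have hlogL : Real.log L = 10 + Real.log T + 2 * Real.log (1 + Real.log T) := by
    rw [hLdef, Real.log_mul (by positivity) (by positivity), Real.log_exp,
      Real.log_mul (by positivity) (by positivity), Real.log_pow]
    push_cast; ring
  have hlog1 : Real.log (1 + Real.log T) ≤ Real.log T := by
    have := Real.log_le_sub_one_of_pos (x := 1 + Real.log T) (by positivity)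
    linarith
  have hlog0 : 0 ≤ Real.log (1 + Real.log T) := Real.log_nonneg (by linarith)
  have hlogL1 : 10 ≤ Real.log L := by rw [hlogL]; linarith
  have hlogL2 : Real.log L ≤ 10 * (1 + Real.log T) := by rw [hlogL]; linarith
  have h := PL_pass2 (Γ := Γ) hq hU (L := L) (by linarith) (by linarith) H (Finset.Subset.refl H)
  have hTL : T ≤ L / (107 * Real.log L ^ 2) := by
    rw [le_div_iff₀ (by positivity)]
    calc T * (107 * Real.log L ^ 2) ≤ T * (107 * (10 * (1 + Real.log T)) ^ 2) := by gcongr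
      _ = 10700 * (T * (1 + Real.log T) ^ 2) := by ring
      _ ≤ Real.exp 10 * (T * (1 + Real.log T) ^ 2) := by gcongr
  have hη : Real.exp (-(L / (107 * Real.log L ^ 2))) * H.card ≤ Real.log 2 := by
    calc Real.exp (-(L / (107 * Real.log L ^ 2))) * H.card
        ≤ Real.exp (-T) * Real.exp (T - 1) := by
          gcongr
      _ = Real.exp (-1) := by rw [← Real.exp_add]; ring_nf
      _ ≤ Real.log 2 := by
          have h1 := Real.exp_neg_one_lt_d9
          have h2 := Real.log_two_gt_d9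
          linarith
  have hR : R Γ (2 * L * q) H ≤ 2 := by
    calc R Γ (2 * L * q) H ≤ _ := h
      _ ≤ Real.exp (Real.log 2) := Real.exp_le_exp.2 hη
      _ = 2 := Real.exp_log (by norm_num)
  rcases F.eq_empty_or_nonempty with rfl | hF
  · simp [fr_empty]
  have hF1 : 1 ≤ F.card := Finset.card_pos.2 hF
  have hLq : 0 < 2 * L * q := by positivity
  calc fr Γ H F ≤ R Γ (2 * L * q) H * (2 * L * q) ^ F.card := fr_le hLq H F
    _ ≤ 2 * (2 * L * q) ^ F.card := by gcongr
    _ ≤ 2 ^ F.card * (2 * L * q) ^ F.card := by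
        gcongr
        calc (2 : ℝ) = 2 ^ 1 := by norm_num
          _ ≤ 2 ^ F.card := by gcongr; norm_num
    _ = (4 * L * q) ^ F.card := by rw [← mul_pow]; ring_nf

end P064
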