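import Mathlib

namespace P064

open scoped Classical in
/-- Expectation of `f (G(n,p))`. In `G(n,p)` each of the `n choose 2` possible edges is present
independently with probability `p`, so a given graph `G` on `Fin n` has probability
`p ^ e(G) * (1 - p) ^ (n choose 2 - e(G))`. -/
noncomputable def gnpExp (n : ℕ) (p : ℝ) (f : SimpleGraph (Fin n) → ℝ) : ℝ :=
  ∑ G : SimpleGraph (Fin n),
    p ^ G.edgeSet.ncard * (1 - p) ^ (n.choose 2 - G.edgeSet.ncard) * f G

open scoped Classical in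
/-- Probability that `G(n,p)` has property `A`. -/
noncomputable def gnpProb (n : ℕ) (p : ℝ) (A : SimpleGraph (Fin n) → Prop) : ℝ :=
  gnpExp n p (fun G => if A G then 1 else 0)

/-- The threshold `p_c(n, H)`: the least `p` with `Pr(N(G(n,p),H) > 0) ≥ 1/2`. -/
noncomputable def pc (n : ℕ) {V : Type} (H : SimpleGraph V) : ℝ :=
  sInf {p : ℝ | 0 ≤ p ∧ p ≤ 1 ∧ 1 / 2 ≤ gnpProb n p (fun G => 0 < G.copyCount H)}

/-- The expectation threshold `p_E(n, H)`: the least `p` with `E N(G(n,p),F) ≥ 1/2` for every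
subgraph `F` of `H`. -/
noncomputable def pE (n : ℕ) {V : Type} (H : SimpleGraph V) : ℝ :=
  sInf {p : ℝ | 0 ≤ p ∧ p ≤ 1 ∧
    ∀ F : H.Subgraph, 1 / 2 ≤ gnpExp n p (fun G => (G.copyCount F.coe : ℝ))}

/-- The modified expectation threshold: the least `p` with `E N(G(n,p),F) ≥ N(H,F)/2` for every
subgraph `F` of `H`. -/
noncomputable def pEt (n : ℕ) {V : Type} [Fintype V] (H : SimpleGraph V) : ℝ :=
  sInf {p : ℝ | 0 ≤ p ∧ p ≤ 1 ∧
    ∀ F : H.Subgraph, (H.copyCount F.coe : ℝ) / 2 ≤ gnpExp n p (fun G => (G.copyCount F.coe : ℝ))}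

end P064
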