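import Mathlib
import Vale.Agent.P064.Defs

open Finset
open scoped Pointwise

namespace P064

/-- Permutations of the vertices act on pairs of vertices. -/
@[reducible] def permSym2 (n : ℕ) : MulAction (Equiv.Perm (Fin n)) (Sym2 (Fin n)) where
  smul g e := e.map g
  one_smul e := by
    change Sym2.map _ e = e
    simp
  mul_smul g h e := by
    change Sym2.map _ e = Sym2.map _ (Sym2.map _ e)
    rw [Sym2.map_map]; rfl

attribute [local instance] permSym2

lemma smul_mk {n : ℕ} (g : Equiv.Perm (Fin n)) (a b : Fin n) :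
    g • (s(a, b) : Sym2 (Fin n)) = s(g a, g b) := rfl

lemma smul_isDiag {n : ℕ} (g : Equiv.Perm (Fin n)) (e : Sym2 (Fin n)) :
    (g • e).IsDiag ↔ e.IsDiag := by
  induction e using Sym2.ind with
  | _ a b => rw [smul_mk]; simp

/-- Non-loop pairs. -/
abbrev Pr (n : ℕ) : Type := {e : Sym2 (Fin n) // ¬ e.IsDiag}

lemma card_Pr (n : ℕ) : Fintype.card (Pr n) = n.choose 2 := by
  have := Sym2.card_subtype_not_diag (α := Fin n)
  simpa using this

open scoped Classical in
/-- Graphs on `Fin n` and sets of non-loop pairs. -/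
noncomputable def graphEquiv (n : ℕ) : SimpleGraph (Fin n) ≃ Finset (Pr n) where
  toFun G := univ.filter (fun e : Pr n => e.1 ∈ G.edgeSet)
  invFun W := SimpleGraph.fromEdgeSet (Subtype.val '' (W : Set (Pr n)))
  left_inv G := by
    have : (Subtype.val '' ((univ.filter (fun e : Pr n => e.1 ∈ G.edgeSet) : Finset (Pr n)) :
        Set (Pr n))) = G.edgeSet := by
      ext e
      constructor
      · rintro ⟨a, ha, rfl⟩
        simpa using ha
      · intro he
        exact ⟨⟨e, G.not_isDiag_of_mem_edgeSet he⟩, by simpa using he, rfl⟩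
    change SimpleGraph.fromEdgeSet (Subtype.val '' ((univ.filter (fun e : Pr n =>
      e.1 ∈ G.edgeSet) : Finset (Pr n)) : Set (Pr n))) = G
    rw [this, SimpleGraph.fromEdgeSet_edgeSet]
  right_inv W := by
    ext e
    simp only [SimpleGraph.edgeSet_fromEdgeSet, Finset.mem_filter, Finset.mem_univ, true_and,
      Set.mem_sdiff, Set.mem_image, Finset.mem_coe]
    constructor
    · rintro ⟨⟨a, ha, hae⟩, -⟩
      rwa [← Subtype.ext hae]
    · intro he
      exact ⟨⟨e, he, rfl⟩, e.2⟩

lemma edgeSet_graphEquiv_symm {n : ℕ} (W : Finset (Pr n)) :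
    ((graphEquiv n).symm W).edgeSet = Subtype.val '' (W : Set (Pr n)) := by
  ext e
  simp only [graphEquiv, Equiv.coe_fn_symm_mk, SimpleGraph.edgeSet_fromEdgeSet, Set.mem_sdiff,
    Set.mem_image, Finset.mem_coe]
  constructor
  · rintro ⟨h, -⟩; exact h
  · rintro ⟨a, ha, rfl⟩; exact ⟨⟨a, ha, rfl⟩, a.2⟩

lemma gnpExp_eq (n : ℕ) (p : ℝ) (f : SimpleGraph (Fin n) → ℝ) :
    gnpExp n p f = ∑ W : Finset (Pr n), p ^ W.card * (1 - p) ^ (Fintype.card (Pr n) - W.card)
      * f ((graphEquiv n).symm W) := by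
  unfold gnpExp
  apply Fintype.sum_equiv (graphEquiv n)
  intro G
  have h : G.edgeSet.ncard = ((graphEquiv n) G).card := by
    have := edgeSet_graphEquiv_symm ((graphEquiv n) G)
    rw [Equiv.symm_apply_apply] at this
    rw [this, Set.ncard_image_of_injective _ Subtype.val_injective, Set.ncard_coe_finset]
  rw [Equiv.symm_apply_apply, h, card_Pr]

lemma gnpExp_nonneg_mono {n : ℕ} {p : ℝ} (h0 : 0 ≤ p) (h1 : p ≤ 1)
    {f g : SimpleGraph (Fin n) → ℝ} (h : ∀ G, f G ≤ g G) : gnpExp n p f ≤ gnpExp n p g := by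
  unfold gnpExp
  apply Finset.sum_le_sum
  intro G _
  have : 0 ≤ 1 - p := by linarith
  exact mul_le_mul_of_nonneg_left (h G) (by positivity)

/-- Probability that `G(n,p)` contains all edges of `S`. -/
lemma gnpExp_subset {n : ℕ} (p : ℝ) (S : Finset (Sym2 (Fin n)))
    (hS : ∀ e ∈ S, ¬ e.IsDiag) [∀ G : SimpleGraph (Fin n), Decidable (↑S ⊆ G.edgeSet)] :
    gnpExp n p (fun G => if (S : Set (Sym2 (Fin n))) ⊆ G.edgeSet then 1 else 0) = p ^ S.card := by
  classical
  rw [gnpExp_eq]
  set T : Finset (Pr n) := univ.filter (fun e : Pr n => e.1 ∈ S) with hT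
  have hTc : T.card = S.card := by
    have : S = T.map ⟨Subtype.val, Subtype.val_injective⟩ := by
      ext e
      simp only [hT, Finset.mem_map, Finset.mem_filter, Finset.mem_univ, true_and,
        Function.Embedding.coeFn_mk, Subtype.exists, exists_and_left, exists_prop]
      constructor
      · intro he; exact ⟨e, he, hS e he, rfl⟩
      · rintro ⟨a, ha, _, rfl⟩; exact ha
    rw [this, Finset.card_map]
  have hiff : ∀ W : Finset (Pr n), ((S : Set (Sym2 (Fin n))) ⊆ ((graphEquiv n).symm W).edgeSet)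
      ↔ T ⊆ W := by
    intro W
    rw [edgeSet_graphEquiv_symm]
    constructor
    · intro h e he
      have he' : e.1 ∈ S := (Finset.mem_filter.1 he).2
      obtain ⟨a, ha, hae⟩ := h he'
      rwa [← Subtype.ext hae]
    · intro h e he
      exact ⟨⟨e, hS e he⟩, h (by rw [hT]; simpa using he), rfl⟩
  have hsum : (∑ W : Finset (Pr n), p ^ W.card * (1 - p) ^ (Fintype.card (Pr n) - W.card)
      * (if (S : Set (Sym2 (Fin n))) ⊆ ((graphEquiv n).symm W).edgeSet then (1 : ℝ) else 0))
      = ∑ U ∈ (Tᶜ).powerset, p ^ T.card * (p ^ U.card * (1 - p) ^ (Tᶜ.card - U.card)) := by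
    have : ∀ W : Finset (Pr n), p ^ W.card * (1 - p) ^ (Fintype.card (Pr n) - W.card)
      * (if (S : Set (Sym2 (Fin n))) ⊆ ((graphEquiv n).symm W).edgeSet then (1 : ℝ) else 0)
      = if T ⊆ W then p ^ W.card * (1 - p) ^ (Fintype.card (Pr n) - W.card) else 0 := by
      intro W
      by_cases h : T ⊆ W
      · rw [if_pos h, if_pos ((hiff W).2 h), mul_one]
      · rw [if_neg h, if_neg (fun h' => h ((hiff W).1 h')), mul_zero]
    rw [Finset.sum_congr rfl (fun W _ => this W), ← Finset.sum_filter]
    symm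
    apply Finset.sum_bij (fun U _ => T ∪ U)
    · intro U _
      simp only [Finset.mem_filter, Finset.mem_univ, true_and]
      exact Finset.subset_union_left
    · intro U hU U' hU' h
      have hd : Disjoint T U := by
        rw [Finset.mem_powerset] at hU
        exact Finset.disjoint_left.2 (fun a ha hb => (Finset.mem_compl.1 (hU hb)) ha)
      have hd' : Disjoint T U' := by
        rw [Finset.mem_powerset] at hU'
        exact Finset.disjoint_left.2 (fun a ha hb => (Finset.mem_compl.1 (hU' hb)) ha)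
      have e1 : (T ∪ U) \ T = U := by
        rw [Finset.union_sdiff_left]; exact Finset.sdiff_eq_self_of_disjoint hd.symm
      have e2 : (T ∪ U') \ T = U' := by
        rw [Finset.union_sdiff_left]; exact Finset.sdiff_eq_self_of_disjoint hd'.symm
      rw [← e1, ← e2]
      rw [h]
    · intro W hW
      simp only [Finset.mem_filter, Finset.mem_univ, true_and] at hW
      refine ⟨W \ T, ?_, ?_⟩
      · rw [Finset.mem_powerset]
        intro a ha
        rw [Finset.mem_compl]
        exact (Finset.mem_sdiff.1 ha).2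
      · exact Finset.union_sdiff_of_subset hW
    · intro U hU
      rw [Finset.mem_powerset] at hU
      have hd : Disjoint T U :=
        Finset.disjoint_left.2 (fun a ha hb => (Finset.mem_compl.1 (hU hb)) ha)
      rw [Finset.card_union_of_disjoint hd, pow_add, Finset.card_compl]
      rw [show Fintype.card (Pr n) - (T.card + U.card) = Fintype.card (Pr n) - T.card - U.card by
        omega]
      ring
  rw [hsum, ← Finset.mul_sum, Finset.sum_pow_mul_eq_add_pow]
  simp [hTc]

open scoped Classical in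
/-- Image in `Sym2 (Fin n)` of a set of pairs of `V` under an embedding of `V` in `Fin n`. -/
noncomputable def im {n : ℕ} {V : Type} (i : V ↪ Fin n) (E : Set (Sym2 V)) :
    Finset (Sym2 (Fin n)) :=
  univ.filter (fun e => ∃ e' ∈ E, Sym2.map i e' = e)

lemma mem_im {n : ℕ} {V : Type} (i : V ↪ Fin n) (E : Set (Sym2 V)) (e : Sym2 (Fin n)) :
    e ∈ im i E ↔ ∃ e' ∈ E, Sym2.map i e' = e := by
  simp [im]

lemma im_mono {n : ℕ} {V : Type} (i : V ↪ Fin n) {E E' : Set (Sym2 V)} (h : E ⊆ E') :
    im i E ⊆ im i E' := by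
  intro e he
  rw [mem_im] at he ⊢
  obtain ⟨e', he', rfl⟩ := he
  exact ⟨e', h he', rfl⟩

lemma im_not_isDiag {n : ℕ} {V : Type} (i : V ↪ Fin n) {H : SimpleGraph V} :
    ∀ e ∈ im i H.edgeSet, ¬ e.IsDiag := by
  intro e he
  rw [mem_im] at he
  obtain ⟨e', he', rfl⟩ := he
  induction e' using Sym2.ind with
  | _ a b =>
    have hab : H.Adj a b := he'
    simpa using hab.ne

end P064
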