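import Mathlib

/-!
# The spread lemma

A `κ`-spread family of sets of size at most `ℓ` on a finite ground set is likely to have a member
inside a random subset of density `C κ log ℓ`.  Proof by minimum fragments.
-/

open Finset

namespace P064

section Prelim

variable {X : Type*} [DecidableEq X]

/-- The weight of `W ⊆ U` under the product measure of density `p` on `U`. -/
noncomputable def wgt (p : ℝ) (U W : Finset X) : ℝ := p ^ W.card * (1 - p) ^ (U.card - W.card)

/-- The expectation of `f` under the product measure of density `p` on `U`. -/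
noncomputable def Ex (p : ℝ) (U : Finset X) (f : Finset X → ℝ) : ℝ :=
  ∑ W ∈ U.powerset, wgt p U W * f W

theorem wgt_nonneg {p : ℝ} (h0 : 0 ≤ p) (h1 : p ≤ 1) (U W : Finset X) : 0 ≤ wgt p U W :=
  mul_nonneg (pow_nonneg h0 _) (pow_nonneg (by linarith) _)

theorem Ex_empty (p : ℝ) (f : Finset X → ℝ) : Ex p ∅ f = f ∅ := by
  simp [Ex, wgt]

theorem Ex_insert (p : ℝ) {a : X} {U : Finset X} (ha : a ∉ U) (f : Finset X → ℝ) :
    Ex p (insert a U) f = (1 - p) * Ex p U f + p * Ex p U (fun W => f (insert a W)) := by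
  unfold Ex
  rw [sum_powerset_insert ha, mul_sum, mul_sum]
  congr 1
  · refine sum_congr rfl fun W hW => ?_
    rw [mem_powerset] at hW
    have h1 : W.card ≤ U.card := card_le_card hW
    unfold wgt
    rw [card_insert_of_notMem ha, show U.card + 1 - W.card = (U.card - W.card) + 1 by omega,
      pow_succ]
    ring
  · refine sum_congr rfl fun W hW => ?_
    rw [mem_powerset] at hW
    have h1 : W.card ≤ U.card := card_le_card hW
    unfold wgt
    rw [card_insert_of_notMem ha, card_insert_of_notMem (fun h => ha (hW h)),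
      show U.card + 1 - (W.card + 1) = U.card - W.card by omega, pow_succ]
    ring

theorem Ex_congr {p : ℝ} {U : Finset X} {f g : Finset X → ℝ} (h : ∀ W ⊆ U, f W = g W) :
    Ex p U f = Ex p U g :=
  sum_congr rfl fun W hW => by rw [h W (mem_powerset.1 hW)]

theorem Ex_mono {p : ℝ} (h0 : 0 ≤ p) (h1 : p ≤ 1) {U : Finset X} {f g : Finset X → ℝ}
    (h : ∀ W ⊆ U, f W ≤ g W) : Ex p U f ≤ Ex p U g :=
  sum_le_sum fun W hW =>
    mul_le_mul_of_nonneg_left (h W (mem_powerset.1 hW)) (wgt_nonneg h0 h1 _ _)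

theorem Ex_add (p : ℝ) (U : Finset X) (f g : Finset X → ℝ) :
    Ex p U (fun W => f W + g W) = Ex p U f + Ex p U g := by
  unfold Ex
  rw [← sum_add_distrib]
  exact sum_congr rfl fun W _ => by ring

theorem Ex_smul (p c : ℝ) (U : Finset X) (f : Finset X → ℝ) :
    Ex p U (fun W => c * f W) = c * Ex p U f := by
  unfold Ex
  rw [mul_sum]
  exact sum_congr rfl fun W _ => by ring

theorem Ex_const (p c : ℝ) (U : Finset X) : Ex p U (fun _ => c) = c := by
  induction U using Finset.induction_on with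
  | empty => rw [Ex_empty]
  | insert a U ha ih => rw [Ex_insert p ha, ih]; ring

/-- The union of two independent product-random sets is a product-random set. -/
theorem Ex_union (q p : ℝ) (U : Finset X) (f : Finset X → ℝ) :
    Ex q U (fun W₁ => Ex p U (fun W₂ => f (W₁ ∪ W₂)))
      = Ex (1 - (1 - q) * (1 - p)) U f := by
  induction U using Finset.induction_on generalizing f with
  | empty => simp [Ex_empty]
  | insert a U ha ih =>
    rw [Ex_insert q ha, Ex_insert _ ha]
    have e1 : ∀ W₁ : Finset X, Ex p (insert a U) (fun W₂ => f (W₁ ∪ W₂))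
        = (1 - p) * Ex p U (fun W₂ => f (W₁ ∪ W₂))
          + p * Ex p U (fun W₂ => f (insert a (W₁ ∪ W₂))) := by
      intro W₁
      rw [Ex_insert p ha]
      simp only [union_insert]
    have e2 : ∀ W₁ : Finset X, Ex p (insert a U) (fun W₂ => f (insert a W₁ ∪ W₂))
        = Ex p U (fun W₂ => f (insert a (W₁ ∪ W₂))) := by
      intro W₁
      rw [Ex_insert p ha]
      simp only [union_insert, insert_union, insert_idem]
      ring
    have E1 : (fun W₁ : Finset X => Ex p (insert a U) (fun W₂ => f (W₁ ∪ W₂)))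
        = fun W₁ => (1 - p) * Ex p U (fun W₂ => f (W₁ ∪ W₂))
          + p * Ex p U (fun W₂ => f (insert a (W₁ ∪ W₂))) := funext e1
    have E2 : (fun W₁ : Finset X => Ex p (insert a U) (fun W₂ => f (insert a W₁ ∪ W₂)))
        = fun W₁ => Ex p U (fun W₂ => f (insert a (W₁ ∪ W₂))) := funext e2
    rw [E1, E2, Ex_add, Ex_smul, Ex_smul, ih f, ih (fun W => f (insert a W))]
    ring

end Prelim

section Frag

variable {X ι : Type*} [DecidableEq X] [DecidableEq ι]

/-- `T` is a minimum fragment type for the set `Z` : some member lies in `Z` and all members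
inside `Z` contain `T`. -/
def Good (I : Finset ι) (A : ι → Finset X) (T Z : Finset X) : Prop :=
  (∃ j ∈ I, A j ⊆ Z) ∧ ∀ j ∈ I, A j ⊆ Z → T ⊆ A j

/-- Existence of minimum fragments. -/
theorem exists_fragment (I : Finset ι) (A : ι → Finset X) (W : Finset X) {i : ι} (hi : i ∈ I) :
    ∃ T : Finset X, T ⊆ A i ∧ Disjoint T W ∧ Good I A T (W ∪ T) ∧
      ∃ j ∈ I, A j \ W = T := by
  classical
  obtain ⟨j, hj, hmin⟩ := (I.filter fun j => A j ⊆ W ∪ A i).exists_min_image
    (fun j => (A j \ W).card) ⟨i, mem_filter.2 ⟨hi, subset_union_right⟩⟩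
  rw [mem_filter] at hj
  refine ⟨A j \ W, ?_, sdiff_disjoint, ⟨⟨j, hj.1, ?_⟩, ?_⟩, j, hj.1, rfl⟩
  · intro x hx
    rw [mem_sdiff] at hx
    rcases mem_union.1 (hj.2 hx.1) with h | h
    · exact absurd h hx.2
    · exact h
  · intro x hx
    by_cases h : x ∈ W
    · exact mem_union_left _ h
    · exact mem_union_right _ (mem_sdiff.2 ⟨hx, h⟩)
  · intro k hk hkZ
    have h1 : A k \ W ⊆ A j \ W := by
      intro x hx
      rw [mem_sdiff] at hx
      rcases mem_union.1 (hkZ hx.1) with h | h
      · exact absurd h hx.2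
      · exact h
    have h2 : A k ⊆ W ∪ A i := by
      intro x hx
      rcases mem_union.1 (hkZ hx) with h | h
      · exact mem_union_left _ h
      · exact hj.2 (mem_sdiff.1 h).1
    have h3 := hmin k (mem_filter.2 ⟨hk, h2⟩)
    have h4 : A k \ W = A j \ W := eq_of_subset_of_card_le h1 h3
    rw [← h4]
    exact sdiff_subset

/-- The chosen minimum fragment. -/
noncomputable def frag (I : Finset ι) (A : ι → Finset X) (W : Finset X) (i : ι) : Finset X :=
  open scoped Classical in
  if hi : i ∈ I then (exists_fragment I A W hi).choose else ∅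

theorem frag_spec (I : Finset ι) (A : ι → Finset X) (W : Finset X) {i : ι} (hi : i ∈ I) :
    frag I A W i ⊆ A i ∧ Disjoint (frag I A W i) W ∧ Good I A (frag I A W i) (W ∪ frag I A W i) ∧
      ∃ j ∈ I, A j \ W = frag I A W i := by
  unfold frag
  rw [dif_pos hi]
  exact (exists_fragment I A W hi).choose_spec

/-- Change of variables `Z = W ∪ T`. -/
theorem sum_disjoint_le {q : ℝ} (hq0 : 0 < q) (hq1 : q ≤ 1) {U T : Finset X} (hT : T ⊆ U)
    (P : Finset X → Prop) [DecidablePred P] :
    ∑ W ∈ U.powerset.filter (fun W => Disjoint T W ∧ P (W ∪ T)), wgt q U W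
      ≤ (1 / q) ^ T.card * ∑ Z ∈ U.powerset.filter P, wgt q U Z := by
  rw [mul_sum]
  have hinj : Set.InjOn (fun W : Finset X => W ∪ T)
      (U.powerset.filter (fun W => Disjoint T W ∧ P (W ∪ T)) : Finset (Finset X)) := by
    intro W hW W' hW' h
    rw [mem_coe, mem_filter] at hW hW'
    have h1 : (W ∪ T) \ T = W := by
      rw [union_sdiff_right, sdiff_eq_self_of_disjoint hW.2.1.symm]
    have h2 : (W' ∪ T) \ T = W' := by
      rw [union_sdiff_right, sdiff_eq_self_of_disjoint hW'.2.1.symm]
    rw [← h1, ← h2]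
    exact congrArg (fun s => s \ T) h
  have hw : ∀ W ∈ U.powerset.filter (fun W => Disjoint T W ∧ P (W ∪ T)),
      wgt q U W ≤ (1 / q) ^ T.card * wgt q U (W ∪ T) := by
    intro W hW
    rw [mem_filter, mem_powerset] at hW
    obtain ⟨hWU, hd, -⟩ := hW
    unfold wgt
    rw [card_union_of_disjoint hd.symm]
    have hc : W.card + T.card ≤ U.card := by
      rw [← card_union_of_disjoint hd.symm]
      exact card_le_card (union_subset hWU hT)
    have e1 : (1 / q) ^ T.card * (q ^ (W.card + T.card) * (1 - q) ^ (U.card - (W.card + T.card)))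
        = q ^ W.card * (1 - q) ^ (U.card - (W.card + T.card)) := by
      rw [pow_add, one_div, inv_pow]
      field_simp
    rw [e1]
    refine mul_le_mul_of_nonneg_left ?_ (by positivity)
    exact pow_le_pow_of_le_one (by linarith) (by linarith) (by omega)
  refine (sum_le_sum hw).trans ?_
  rw [← sum_image (f := fun Z => (1 / q) ^ T.card * wgt q U Z) (g := fun W => W ∪ T) hinj]
  refine sum_le_sum_of_subset_of_nonneg ?_ fun Z _ _ =>
    mul_nonneg (by positivity) (wgt_nonneg hq0.le hq1 _ _)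
  intro Z hZ
  rw [mem_image] at hZ
  obtain ⟨W, hW, rfl⟩ := hZ
  rw [mem_filter, mem_powerset] at hW ⊢
  exact ⟨union_subset hW.1 hT, hW.2.2⟩

/-- One round: large minimum fragments are rare. -/
theorem one_round {U : Finset X} (I : Finset ι) (A : ι → Finset X) (hA : ∀ i ∈ I, A i ⊆ U)
    {l m : ℕ} (hl : ∀ i ∈ I, (A i).card ≤ l) {κ K q L : ℝ} (hκ : 0 < κ) (hK : 0 ≤ K)
    (hL : 1 ≤ L) (hq0 : 0 < q) (hq1 : q ≤ 1) (hqL : κ * L ≤ q)
    (hsp : ∀ S : Finset X, ((I.filter fun i => S ⊆ A i).card : ℝ) ≤ K * κ ^ S.card) :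
    Ex q U (fun W => ((I.filter fun i => m ≤ (frag I A W i).card).card : ℝ))
      ≤ K * (2 ^ l * (1 / L) ^ m) := by
  classical
  have hL0 : 0 < L := by linarith
  have hκq : κ / q ≤ 1 / L := by
    rw [div_le_div_iff₀ hq0 hL0]; linarith
  -- step A : bound the count by a sum over `T`
  have hA1 : ∀ W ∈ U.powerset, ((I.filter fun i => m ≤ (frag I A W i).card).card : ℝ)
      ≤ ∑ T ∈ U.powerset.filter (fun T => m ≤ T.card ∧ Disjoint T W ∧ Good I A T (W ∪ T)),
        ((I.filter fun i => T ⊆ A i).card : ℝ) := by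
    intro W _
    have h1 : (I.filter fun i => m ≤ (frag I A W i).card)
        ⊆ (U.powerset.filter (fun T => m ≤ T.card ∧ Disjoint T W ∧ Good I A T (W ∪ T))).biUnion
          (fun T => I.filter fun i => T ⊆ A i) := by
      intro i hi
      rw [mem_filter] at hi
      obtain ⟨hiI, him⟩ := hi
      obtain ⟨h2, h3, h4, -⟩ := frag_spec I A W hiI
      rw [mem_biUnion]
      refine ⟨frag I A W i, ?_, ?_⟩
      · rw [mem_filter, mem_powerset]
        exact ⟨h2.trans (hA i hiI), him, h3, h4⟩
      · rw [mem_filter]; exact ⟨hiI, h2⟩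
    have h2 := (card_le_card h1).trans card_biUnion_le
    exact_mod_cast h2
  have hA2 : Ex q U (fun W => ((I.filter fun i => m ≤ (frag I A W i).card).card : ℝ))
      ≤ ∑ W ∈ U.powerset, ∑ T ∈ U.powerset.filter
          (fun T => m ≤ T.card ∧ Disjoint T W ∧ Good I A T (W ∪ T)),
          wgt q U W * (K * κ ^ T.card) := by
    unfold Ex
    refine sum_le_sum fun W hW => ?_
    refine (mul_le_mul_of_nonneg_left (hA1 W hW) (wgt_nonneg hq0.le hq1 _ _)).trans ?_
    rw [mul_sum]
    exact sum_le_sum fun T _ => mul_le_mul_of_nonneg_left (hsp T) (wgt_nonneg hq0.le hq1 _ _)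
  -- step B : exchange the sums
  have hB : ∑ W ∈ U.powerset, ∑ T ∈ U.powerset.filter
          (fun T => m ≤ T.card ∧ Disjoint T W ∧ Good I A T (W ∪ T)),
          wgt q U W * (K * κ ^ T.card)
      = ∑ T ∈ U.powerset.filter (fun T => m ≤ T.card), (K * κ ^ T.card) *
          ∑ W ∈ U.powerset.filter (fun W => Disjoint T W ∧ Good I A T (W ∪ T)), wgt q U W := by
    simp_rw [mul_sum]
    rw [sum_comm' (t' := U.powerset.filter (fun T => m ≤ T.card))
      (s' := fun T => U.powerset.filter (fun W => Disjoint T W ∧ Good I A T (W ∪ T)))]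
    · exact sum_congr rfl fun T _ => sum_congr rfl fun W _ => mul_comm _ _
    · intro W T
      simp only [mem_filter]
      tauto
  have hC : ∑ T ∈ U.powerset.filter (fun T => m ≤ T.card), (K * κ ^ T.card) *
          ∑ W ∈ U.powerset.filter (fun W => Disjoint T W ∧ Good I A T (W ∪ T)), wgt q U W
      ≤ ∑ T ∈ U.powerset.filter (fun T => m ≤ T.card),
          ∑ Z ∈ U.powerset.filter (fun Z => Good I A T Z), (K * (1 / L) ^ m) * wgt q U Z := by
    refine sum_le_sum fun T hT => ?_
    rw [mem_filter, mem_powerset] at hT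
    refine (mul_le_mul_of_nonneg_left (sum_disjoint_le hq0 hq1 hT.1 (fun Z => Good I A T Z))
      (by positivity)).trans ?_
    rw [← mul_assoc, ← mul_sum]
    refine mul_le_mul_of_nonneg_right ?_ (sum_nonneg fun Z _ => wgt_nonneg hq0.le hq1 _ _)
    rw [mul_assoc, ← mul_pow, mul_one_div]
    refine mul_le_mul_of_nonneg_left ?_ hK
    calc (κ / q) ^ T.card ≤ (1 / L) ^ T.card := pow_le_pow_left₀ (by positivity) hκq _
      _ ≤ (1 / L) ^ m := pow_le_pow_of_le_one (by positivity)
          ((div_le_one hL0).2 hL) hT.2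
  have hD : ∑ T ∈ U.powerset.filter (fun T => m ≤ T.card),
          ∑ Z ∈ U.powerset.filter (fun Z => Good I A T Z), (K * (1 / L) ^ m) * wgt q U Z
      = ∑ Z ∈ U.powerset, ∑ T ∈ U.powerset.filter (fun T => m ≤ T.card ∧ Good I A T Z),
          (K * (1 / L) ^ m) * wgt q U Z := by
    rw [sum_comm' (t' := U.powerset)
      (s' := fun Z => U.powerset.filter (fun T => m ≤ T.card ∧ Good I A T Z))]
    intro T Z
    simp only [mem_filter]
    tauto
  have hE : ∀ Z ∈ U.powerset, ∑ T ∈ U.powerset.filter (fun T => m ≤ T.card ∧ Good I A T Z),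
          (K * (1 / L) ^ m) * wgt q U Z ≤ wgt q U Z * (K * (2 ^ l * (1 / L) ^ m)) := by
    intro Z _
    rw [sum_const, nsmul_eq_mul]
    have hc : ((U.powerset.filter (fun T => m ≤ T.card ∧ Good I A T Z)).card : ℝ) ≤ 2 ^ l := by
      by_cases hex : ∃ j ∈ I, A j ⊆ Z
      · obtain ⟨j, hj, hjZ⟩ := hex
        have h1 : U.powerset.filter (fun T => m ≤ T.card ∧ Good I A T Z) ⊆ (A j).powerset := by
          intro T hT
          rw [mem_filter] at hT
          exact mem_powerset.2 (hT.2.2.2 j hj hjZ)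
        have h2 := card_le_card h1
        rw [card_powerset] at h2
        have h3 : 2 ^ (A j).card ≤ 2 ^ l := Nat.pow_le_pow_right (by norm_num) (hl j hj)
        exact_mod_cast h2.trans h3
      · have h1 : U.powerset.filter (fun T => m ≤ T.card ∧ Good I A T Z) = ∅ := by
          rw [filter_eq_empty_iff]
          intro T _ h
          exact hex h.2.1
        rw [h1, card_empty, Nat.cast_zero]
        positivity
    have hnn : 0 ≤ (K * (1 / L) ^ m) * wgt q U Z :=
      mul_nonneg (mul_nonneg hK (by positivity)) (wgt_nonneg hq0.le hq1 _ _)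
    refine (mul_le_mul_of_nonneg_right hc hnn).trans (le_of_eq (by ring))
  refine hA2.trans ?_
  rw [hB]
  refine hC.trans ?_
  rw [hD]
  refine (sum_le_sum hE).trans ?_
  have := Ex_const (X := X) q (K * (2 ^ l * (1 / L) ^ m)) U
  unfold Ex at this
  exact this.le

/-- The densities after `s` rounds. -/
noncomputable def dens (q : ℝ) (s : ℕ) : ℝ := 1 - (1 - q) ^ s

theorem dens_succ (q : ℝ) (s : ℕ) : dens q (s + 1) = 1 - (1 - q) * (1 - dens q s) := by
  unfold dens
  rw [pow_succ]
  ring

theorem dens_mem {q : ℝ} (hq0 : 0 < q) (hq1 : q ≤ 1) (s : ℕ) : 0 ≤ dens q s ∧ dens q s ≤ 1 := by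
  unfold dens
  have h1 : (1 - q) ^ s ≤ 1 := pow_le_one₀ (by linarith) (by linarith)
  have h2 : 0 ≤ (1 - q) ^ s := pow_nonneg (by linarith) _
  constructor <;> linarith

open scoped Classical in
/-- The induction on the number of rounds. -/
theorem rounds {U : Finset X} {κ K q L : ℝ} (hκ : 0 < κ) (hK : 0 < K)
    (hL : 1 ≤ L) (hq0 : 0 < q) (hq1 : q ≤ 1) (hqL : κ * L ≤ q) (s : ℕ) :
    ∀ (I : Finset ι) (A : ι → Finset X), (∀ i ∈ I, A i ⊆ U) → (∀ i ∈ I, (A i).card < 2 ^ s) →
      (∀ S : Finset X, ((I.filter fun i => S ⊆ A i).card : ℝ) ≤ K * κ ^ S.card) →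
      (I.card : ℝ) / K - ∑ j ∈ range s, (4 / L) ^ (2 ^ j)
        ≤ Ex (dens q s) U (fun W => if ∃ i ∈ I, A i ⊆ W then 1 else 0) := by
  induction s with
  | zero =>
    intro I A _ hcard hsp
    rw [range_zero, sum_empty, sub_zero]
    have h0 := hsp ∅
    have h1 : (I.filter fun i => (∅ : Finset X) ⊆ A i) = I :=
      filter_true_of_mem fun i _ => empty_subset _
    rw [h1, card_empty, pow_zero, mul_one] at h0
    by_cases hI : I.Nonempty
    · obtain ⟨i, hi⟩ := hI
      have h2 : A i = ∅ := by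
        have := hcard i hi
        rw [pow_zero, Nat.lt_one_iff, card_eq_zero] at this
        exact this
      have h3 : (fun W : Finset X => if ∃ i ∈ I, A i ⊆ W then (1 : ℝ) else 0) = fun _ => 1 := by
        funext W
        rw [if_pos ⟨i, hi, by rw [h2]; exact empty_subset _⟩]
      rw [h3, Ex_const]
      exact (div_le_one hK).2 h0
    · rw [not_nonempty_iff_eq_empty] at hI
      subst hI
      rw [card_empty, Nat.cast_zero, zero_div]
      obtain ⟨h4, h5⟩ := dens_mem hq0 hq1 0
      refine sum_nonneg fun W _ => mul_nonneg (wgt_nonneg h4 h5 _ _) ?_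
      beta_reduce
      split_ifs <;> norm_num
  | succ s ih =>
    intro I A hAU hcard hsp
    have hL0 : 0 < L := by linarith
    obtain ⟨d0, d1⟩ := dens_mem hq0 hq1 s
    rw [dens_succ, ← Ex_union]
    -- for each first round
    have hone : ∀ W₁ : Finset X,
        ((I.filter fun i => (frag I A W₁ i).card < 2 ^ s).card : ℝ) / K
          - ∑ j ∈ range s, (4 / L) ^ (2 ^ j)
        ≤ Ex (dens q s) U (fun W₂ => if ∃ i ∈ I, A i ⊆ W₁ ∪ W₂ then 1 else 0) := by
      intro W₁
      have h1 := ih (I.filter fun i => (frag I A W₁ i).card < 2 ^ s) (fun i => frag I A W₁ i)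
        (fun i hi => ((frag_spec I A W₁ (mem_filter.1 hi).1).1).trans
          (hAU i (mem_filter.1 hi).1))
        (fun i hi => (mem_filter.1 hi).2)
        (fun S => by
          refine le_trans ?_ (hsp S)
          have : ((I.filter fun i => (frag I A W₁ i).card < 2 ^ s).filter
              fun i => S ⊆ frag I A W₁ i) ⊆ I.filter fun i => S ⊆ A i := by
            intro i hi
            rw [mem_filter, mem_filter] at hi
            exact mem_filter.2 ⟨hi.1.1, hi.2.trans (frag_spec I A W₁ hi.1.1).1⟩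
          exact_mod_cast card_le_card this)
      refine h1.trans (Ex_mono d0 d1 fun W₂ _ => ?_)
      split_ifs with h2 h3 h3
      · exact le_rfl
      · exfalso
        apply h3
        obtain ⟨i, hi, hiW⟩ := h2
        obtain ⟨-, -, -, j, hj, hjT⟩ := frag_spec I A W₁ (mem_filter.1 hi).1
        refine ⟨j, hj, ?_⟩
        intro x hx
        by_cases h : x ∈ W₁
        · exact mem_union_left _ h
        · refine mem_union_right _ (hiW ?_)
          show x ∈ frag I A W₁ i
          rw [← hjT]
          exact mem_sdiff.2 ⟨hx, h⟩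
      · norm_num
      · exact le_rfl
    refine le_trans ?_ (Ex_mono hq0.le hq1 fun W₁ _ => hone W₁)
    -- compute the expectation of the left side
    have hround := one_round (m := 2 ^ s) (l := 2 ^ (s + 1) - 1) I A hAU
      (fun i hi => by have := hcard i hi; omega) hκ hK.le hL hq0 hq1 hqL hsp
    have hsplit : ∀ W₁ : Finset X,
        ((I.filter fun i => (frag I A W₁ i).card < 2 ^ s).card : ℝ)
          = (I.card : ℝ) - ((I.filter fun i => 2 ^ s ≤ (frag I A W₁ i).card).card : ℝ) := by
      intro W₁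
      have h1 := card_filter_add_card_filter_not (s := I) (fun i => (frag I A W₁ i).card < 2 ^ s)
      simp only [not_lt] at h1
      have h2 : ((I.filter fun i => (frag I A W₁ i).card < 2 ^ s).card : ℝ)
          + ((I.filter fun i => 2 ^ s ≤ (frag I A W₁ i).card).card : ℝ) = (I.card : ℝ) := by
        exact_mod_cast h1
      linarith
    have hfun : (fun W₁ : Finset X =>
        ((I.filter fun i => (frag I A W₁ i).card < 2 ^ s).card : ℝ) / K
          - ∑ j ∈ range s, (4 / L) ^ (2 ^ j))
        = fun W₁ => ((I.card : ℝ) / K - ∑ j ∈ range s, (4 / L) ^ (2 ^ j))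
          + (-1 / K) * ((I.filter fun i => 2 ^ s ≤ (frag I A W₁ i).card).card : ℝ) := by
      funext W₁
      rw [hsplit W₁]
      ring
    rw [hfun, Ex_add, Ex_const, Ex_smul, sum_range_succ]
    have hfin : (1 / K) * Ex q U (fun W => ((I.filter fun i => 2 ^ s ≤ (frag I A W i).card).card : ℝ))
        ≤ (4 / L) ^ (2 ^ s) := by
      refine (mul_le_mul_of_nonneg_left hround (by positivity)).trans ?_
      rw [← mul_assoc, one_div_mul_cancel hK.ne', one_mul]
      have h1 : (2 : ℝ) ^ (2 ^ (s + 1) - 1) ≤ 4 ^ (2 ^ s) := by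
        have h2 : (4 : ℝ) ^ (2 ^ s) = 2 ^ (2 ^ (s + 1)) := by
          rw [show (4 : ℝ) = 2 ^ 2 by norm_num, ← pow_mul, pow_succ 2 s, mul_comm 2 (2 ^ s)]
        rw [h2]
        exact pow_le_pow_right₀ (by norm_num) (Nat.sub_le _ _)
      rw [one_div_pow, mul_one_div, div_pow]
      exact div_le_div_of_nonneg_right h1 (by positivity)
    have hneg : (-1 / K) * Ex q U
        (fun W => ((I.filter fun i => 2 ^ s ≤ (frag I A W i).card).card : ℝ))
        = -((1 / K) * Ex q U
          (fun W => ((I.filter fun i => 2 ^ s ≤ (frag I A W i).card).card : ℝ))) := by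
      ring
    rw [hneg]
    linarith

end Frag

/-- **The spread lemma.** -/
theorem spread_threshold : ∃ C : ℝ, 0 < C ∧ ∀ {I X : Type} [Fintype I] [Nonempty I]
    [Fintype X] [DecidableEq X] (A : I → Finset X) (l : ℕ), 2 ≤ l → (∀ i, (A i).card ≤ l) →
    ∀ κ : ℝ, 0 < κ →
    (∀ S : Finset X, ((Finset.univ.filter (fun i => S ⊆ A i)).card : ℝ)
      ≤ κ ^ S.card * Fintype.card I) →
    ∀ p : ℝ, p ≤ 1 → C * κ * Real.log l ≤ p →
    1 / 2 ≤ ∑ W : Finset X, (if ∃ i, A i ⊆ W then
      p ^ W.card * (1 - p) ^ (Fintype.card X - W.card) else 0) := by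
  classical
  refine ⟨200, by norm_num, ?_⟩
  intro I X _ _ _ _ A l hl hcard κ hκ hsp p hp1 hp
  set s : ℕ := Nat.log 2 l + 1 with hs
  have hls : l < 2 ^ s := Nat.lt_pow_succ_log_self (by norm_num) l
  have hs0 : 0 < s := Nat.succ_pos _
  have hlog2 : 0 < Real.log 2 := Real.log_pos (by norm_num)
  have hloglow : Real.log 2 ≤ Real.log l := by
    apply Real.log_le_log (by norm_num)
    exact_mod_cast hl
  have hlogl : 0 < Real.log l := lt_of_lt_of_le hlog2 hloglow
  -- `s ≤ 2 log₂ l`
  have hsl : (s : ℝ) * Real.log 2 ≤ 2 * Real.log l := by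
    have h1 : ((2 : ℝ) ^ (Nat.log 2 l)) ≤ l := by
      exact_mod_cast Nat.pow_log_le_self 2 (by omega)
    have h2 : (Nat.log 2 l : ℝ) * Real.log 2 ≤ Real.log l := by
      rw [← Real.log_pow]
      exact Real.log_le_log (by positivity) h1
    rw [hs]
    push_cast
    nlinarith
  have hlog2' : (0.69 : ℝ) ≤ Real.log 2 := by
    have := Real.log_two_gt_d9
    linarith
  have hppos : 0 < p := lt_of_lt_of_le (by positivity) hp
  -- the density of one round
  set q : ℝ := 1 - (1 - p) ^ ((s : ℝ)⁻¹) with hq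
  have hroot : ((1 - p) ^ ((s : ℝ)⁻¹)) ^ s = 1 - p := by
    rw [← Real.rpow_natCast, ← Real.rpow_mul (by linarith), inv_mul_cancel₀ (by positivity),
      Real.rpow_one]
  have hr0 : 0 ≤ (1 - p) ^ ((s : ℝ)⁻¹) := Real.rpow_nonneg (by linarith) _
  have hr1 : (1 - p) ^ ((s : ℝ)⁻¹) ≤ 1 := Real.rpow_le_one (by linarith) (by linarith)
    (by positivity)
  have hq1 : q ≤ 1 := by rw [hq]; linarith
  have hqnn : 0 ≤ q := by rw [hq]; linarith
  have hdens : dens q s = p := by
    unfold dens
    rw [hq, sub_sub_cancel, hroot]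
    ring
  have hqp : p ≤ s * q := by
    have h1 := one_add_mul_le_pow (a := -q) (by linarith) s
    have h2 : (1 + -q) ^ s = 1 - p := by
      rw [show 1 + -q = (1 - p) ^ ((s : ℝ)⁻¹) by rw [hq]; ring, hroot]
    rw [h2] at h1
    linarith
  have hq0 : 0 < q := by
    rcases hqnn.lt_or_eq with h | h
    · exact h
    · rw [← h, mul_zero] at hqp
      linarith
  have hqL : κ * 64 ≤ q := by
    have hspos : (0 : ℝ) < s := by exact_mod_cast hs0
    have h1 : s * (κ * 64) ≤ s * q := by
      refine le_trans ?_ (hp.trans hqp)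
      have h2 : (s : ℝ) * 0.69 ≤ 2 * Real.log l :=
        (mul_le_mul_of_nonneg_left hlog2' hspos.le).trans hsl
      nlinarith
    exact le_of_mul_le_mul_left h1 hspos
  have hHpos : (0 : ℝ) < Fintype.card I := by exact_mod_cast Fintype.card_pos
  have key := rounds (U := (univ : Finset X)) (L := 64) hκ hHpos (by norm_num) hq0 hq1 hqL s
    (univ : Finset I) A (fun i _ => subset_univ _) (fun i _ => (hcard i).trans_lt hls)
    (fun S => by rw [mul_comm]; exact hsp S)
  rw [card_univ] at key
  rw [hdens, div_self hHpos.ne'] at key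
  have hgeo : ∑ j ∈ range s, ((4 : ℝ) / 64) ^ (2 ^ j) ≤ 1 / 2 := by
    have h1 : ∀ j ∈ range s, ((4 : ℝ) / 64) ^ (2 ^ j) ≤ (1 / 16) * (1 / 16) ^ j := by
      intro j _
      rw [← pow_succ', show (4 : ℝ) / 64 = 1 / 16 by norm_num]
      exact pow_le_pow_of_le_one (by norm_num) (by norm_num) (Nat.lt_two_pow_self)
    refine (sum_le_sum h1).trans ?_
    rw [← mul_sum]
    have h2 : ∑ j ∈ range s, ((1 : ℝ) / 16) ^ j ≤ (1 - 1 / 16)⁻¹ := by
      refine (summable_geometric_of_lt_one (by norm_num) (by norm_num)).sum_le_tsum _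
        (fun i _ => by positivity) |>.trans_eq ?_
      exact tsum_geometric_of_lt_one (by norm_num) (by norm_num)
    nlinarith
  refine le_trans (b := Ex p (univ : Finset X)
    (fun W => if ∃ i ∈ (univ : Finset I), A i ⊆ W then 1 else 0)) (by linarith) (le_of_eq ?_)
  unfold Ex wgt
  rw [powerset_univ, card_univ]
  refine sum_congr rfl fun W _ => ?_
  beta_reduce
  by_cases h : ∃ i, A i ⊆ W
  · have h' : ∃ i ∈ (univ : Finset I), A i ⊆ W := by
      obtain ⟨i, hi⟩ := h
      exact ⟨i, mem_univ i, hi⟩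
    rw [if_pos h, if_pos h', mul_one]
  · have h' : ¬ ∃ i ∈ (univ : Finset I), A i ⊆ W := by
      rintro ⟨i, -, hi⟩
      exact h ⟨i, hi⟩
    rw [if_neg h, if_neg h', mul_zero]

end P064
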