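import Mathlib
import Vale.Agent.P064.Setup
import Vale.Agent.P064.Group
import Vale.Agent.P064.Spread

open Finset
open scoped Pointwise

namespace P064

section orbit

variable {Γ X : Type*} [Group Γ] [Fintype Γ] [MulAction Γ X] [DecidableEq X]

/-- The orbit of a finite set. -/
noncomputable def orb (Γ : Type*) {X : Type*} [Group Γ] [Fintype Γ] [MulAction Γ X]
    [DecidableEq X] (J : Finset X) : Finset (Finset X) :=
  univ.image (fun g : Γ => g • J)

lemma sum_eq_stab (J : Finset X) (g0 : Γ) :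
    (∑ g : Γ, if g • J = g0 • J then (1 : ℝ) else 0) = ∑ g : Γ, if g • J ⊆ J then (1 : ℝ) else 0 := by
  symm
  apply Fintype.sum_equiv (Equiv.mulLeft g0)
  intro g
  have e : (g • J ⊆ J) ↔ (g0 * g) • J = g0 • J := by
    rw [mul_smul]
    constructor
    · intro h
      rw [Finset.eq_of_subset_of_card_le h (by rw [Finset.card_smul_finset])]
    · intro h
      have := smul_left_cancel g0 h
      rw [this]
  by_cases h' : g • J ⊆ J
  · rw [if_pos h', Equiv.coe_mulLeft, if_pos (e.1 h')]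
  · rw [if_neg h', Equiv.coe_mulLeft, if_neg (fun h'' => h' (e.2 h''))]

lemma orb_card (J : Finset X) : ((orb Γ J).card : ℝ) * fr Γ J J = 1 := by
  have hc : (0 : ℝ) < Fintype.card Γ := by exact_mod_cast Fintype.card_pos
  have h1 : ∑ S ∈ orb Γ J, ∑ g : Γ, (if g • J = S then (1 : ℝ) else 0) = Fintype.card Γ := by
    rw [Finset.sum_comm]
    have : ∀ g : Γ, (∑ S ∈ orb Γ J, if g • J = S then (1 : ℝ) else 0) = 1 := by
      intro g
      rw [Finset.sum_ite_eq, if_pos]
      exact Finset.mem_image_of_mem _ (Finset.mem_univ g)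
    rw [Finset.sum_congr rfl (fun g _ => this g)]
    simp
  have h2 : ∀ S ∈ orb Γ J, (∑ g : Γ, (if g • J = S then (1 : ℝ) else 0))
      = ∑ g : Γ, if g • J ⊆ J then (1 : ℝ) else 0 := by
    intro S hS
    obtain ⟨g0, -, rfl⟩ := Finset.mem_image.1 hS
    exact sum_eq_stab J g0
  rw [Finset.sum_congr rfl h2, Finset.sum_const, nsmul_eq_mul] at h1
  unfold fr
  rw [mul_div_assoc', h1, div_self hc.ne']

end orbit

attribute [local instance] permSym2

section count

variable {n : ℕ} {V : Type} (i : V ↪ Fin n) {H : SimpleGraph V}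

open scoped Classical in
/-- Edge finset of a subgraph. -/
noncomputable def ef {G : SimpleGraph (Fin n)} (G' : G.Subgraph) : Finset (Sym2 (Fin n)) :=
  univ.filter (fun e => e ∈ G'.edgeSet)

lemma mem_ef {G : SimpleGraph (Fin n)} (G' : G.Subgraph) (a b : Fin n) :
    s(a, b) ∈ ef G' ↔ G'.Adj a b := by
  simp [ef]

lemma exists_perm {G : SimpleGraph (Fin n)} (F : H.Subgraph) (G' : G.Subgraph)
    (φ : F.coe ≃g G'.coe) :
    ∃ π : Equiv.Perm (Fin n), ∀ u (hu : u ∈ F.verts), π (i u) = (φ ⟨u, hu⟩ : Fin n) := by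
  classical
  let e : {x // x ∈ i '' F.verts} ≃ {x // x ∈ G'.verts} :=
    (Equiv.Set.image i F.verts i.injective).symm.trans φ.toEquiv
  refine ⟨e.extendSubtype, fun u hu => ?_⟩
  rw [e.extendSubtype_apply_of_mem (i u) ⟨u, hu, rfl⟩]
  have : (Equiv.Set.image i F.verts i.injective).symm ⟨i u, ⟨u, hu, rfl⟩⟩ = ⟨u, hu⟩ := by
    rw [Equiv.symm_apply_eq]
    rfl
  change ((φ ((Equiv.Set.image i F.verts i.injective).symm ⟨i u, ⟨u, hu, rfl⟩⟩) :
    G'.verts) : Fin n) = _
  rw [this]

lemma smul_im_eq {G : SimpleGraph (Fin n)} (F : H.Subgraph) (G' : G.Subgraph)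
    (φ : F.coe ≃g G'.coe) (π : Equiv.Perm (Fin n))
    (hπ : ∀ u (hu : u ∈ F.verts), π (i u) = (φ ⟨u, hu⟩ : Fin n)) :
    π • im i F.edgeSet = ef G' := by
  ext e
  rw [Finset.mem_smul_finset]
  constructor
  · rintro ⟨s, hs, rfl⟩
    rw [mem_im] at hs
    obtain ⟨e', he', rfl⟩ := hs
    induction e' using Sym2.ind with
    | _ u v =>
      have huv : F.Adj u v := he'
      rw [Sym2.map_mk, smul_mk, mem_ef, hπ u huv.fst_mem, hπ v huv.snd_mem]
      have := φ.map_rel_iff (a := ⟨u, huv.fst_mem⟩) (b := ⟨v, huv.snd_mem⟩)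
      exact this.2 huv
  · intro he
    induction e using Sym2.ind with
    | _ a b =>
      rw [mem_ef] at he
      have h1 := he.fst_mem
      have h2 := he.snd_mem
      set u := φ.symm ⟨a, h1⟩ with hu
      set v := φ.symm ⟨b, h2⟩ with hv
      have huv : F.Adj u v := by
        have := φ.symm.map_rel_iff (a := ⟨a, h1⟩) (b := ⟨b, h2⟩)
        exact this.2 he
      refine ⟨s(i u, i v), ?_, ?_⟩
      · rw [mem_im]
        exact ⟨s((u : V), (v : V)), huv, rfl⟩
      · rw [smul_mk, hπ u u.2, hπ v v.2]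
        simp [hu, hv]

lemma copyCount_le_orb (F : H.Subgraph) (hF : ∀ v ∈ F.verts, ∃ w, F.Adj v w)
    (G : SimpleGraph (Fin n)) [∀ S : Finset (Sym2 (Fin n)), Decidable ((S : Set (Sym2 (Fin n))) ⊆ G.edgeSet)] :
    (G.copyCount F.coe : ℝ) ≤ ∑ S ∈ orb (Equiv.Perm (Fin n)) (im i F.edgeSet),
      if (S : Set (Sym2 (Fin n))) ⊆ G.edgeSet then (1 : ℝ) else 0 := by
  classical
  rw [← Finset.sum_filter, Finset.sum_const, nsmul_eq_mul, mul_one, SimpleGraph.copyCount]
  norm_cast
  apply Finset.card_le_card_of_injOn (fun G' : G.Subgraph => ef G')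
  · intro G' hG'
    have hG2 : Nonempty (F.coe ≃g G'.coe) := by simpa using hG'
    obtain ⟨φ⟩ := hG2
    obtain ⟨π, hπ⟩ := exists_perm i F G' φ
    simp only [Finset.coe_filter, Set.mem_ofPred_eq]
    refine ⟨?_, ?_⟩
    · rw [← smul_im_eq i F G' φ π hπ]
      exact Finset.mem_image_of_mem _ (Finset.mem_univ π)
    · intro e he
      have : e ∈ G'.edgeSet := by simpa [ef] using he
      exact G'.edgeSet_subset this
  · intro G1 h1 G2 h2 h12
    have hA : ∀ a b, G1.Adj a b ↔ G2.Adj a b := by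
      intro a b
      rw [← mem_ef, ← mem_ef]
      simp only at h12
      rw [h12]
    have hv : ∀ (K : G.Subgraph), Nonempty (F.coe ≃g K.coe) → ∀ x ∈ K.verts, ∃ y, K.Adj x y := by
      rintro K ⟨φ⟩ x hx
      obtain ⟨w, hw⟩ := hF (φ.symm ⟨x, hx⟩) (φ.symm ⟨x, hx⟩).2
      refine ⟨φ ⟨w, hw.snd_mem⟩, ?_⟩
      have := φ.map_rel_iff (a := φ.symm ⟨x, hx⟩) (b := ⟨w, hw.snd_mem⟩)
      have h3 := this.2 hw
      rw [RelIso.apply_symm_apply] at h3
      exact h3
    have hn1 : Nonempty (F.coe ≃g G1.coe) := by simpa using h1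
    have hn2 : Nonempty (F.coe ≃g G2.coe) := by simpa using h2
    ext x y
    · constructor
      · intro hx
        obtain ⟨y, hy⟩ := hv G1 hn1 x hx
        exact ((hA x y).1 hy).fst_mem
      · intro hx
        obtain ⟨y, hy⟩ := hv G2 hn2 x hx
        exact ((hA x y).2 hy).fst_mem
    · exact hA x y

/-- The subgraph with edges `J` and no isolated vertices. -/
def subOf (H : SimpleGraph V) (J : Finset (Sym2 (Fin n))) : H.Subgraph where
  verts := {u | ∃ v, H.Adj u v ∧ s(i u, i v) ∈ J}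
  Adj u v := H.Adj u v ∧ s(i u, i v) ∈ J
  adj_sub h := h.1
  edge_vert h := ⟨_, h⟩
  symm := ⟨fun u v h => ⟨h.1.symm, by rw [Sym2.eq_swap]; exact h.2⟩⟩

lemma im_subOf {J : Finset (Sym2 (Fin n))} (hJ : J ⊆ im i H.edgeSet) :
    im i (subOf i H J).edgeSet = J := by
  ext e
  rw [mem_im]
  constructor
  · rintro ⟨e', he', rfl⟩
    induction e' using Sym2.ind with
    | _ u v =>
      have : (subOf i H J).Adj u v := he'
      exact this.2
  · intro he
    obtain ⟨e', he', rfl⟩ := (mem_im i _ _).1 (hJ he)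
    refine ⟨e', ?_, rfl⟩
    induction e' using Sym2.ind with
    | _ u v => exact ⟨he', he⟩

lemma gnpExp_sum {ι : Type*} (s : Finset ι) (p : ℝ) (f : ι → SimpleGraph (Fin n) → ℝ) :
    gnpExp n p (fun G => ∑ j ∈ s, f j G) = ∑ j ∈ s, gnpExp n p (f j) := by
  unfold gnpExp
  rw [Finset.sum_comm]
  apply Finset.sum_congr rfl
  intro G _
  rw [Finset.mul_sum]

lemma fr_le_of_pE {q : ℝ} (h0 : 0 ≤ q) (h1 : q ≤ 1)
    (hq : ∀ F : H.Subgraph, 1 / 2 ≤ gnpExp n q (fun G => (G.copyCount F.coe : ℝ)))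
    {J : Finset (Sym2 (Fin n))} (hJ : J ⊆ im i H.edgeSet) :
    fr (Equiv.Perm (Fin n)) J J ≤ 2 * q ^ J.card := by
  classical
  have h2 := hq (subOf i H J)
  have h3 : gnpExp n q (fun G => (G.copyCount (subOf i H J).coe : ℝ))
      ≤ (orb (Equiv.Perm (Fin n)) J).card * q ^ J.card := by
    calc gnpExp n q (fun G => (G.copyCount (subOf i H J).coe : ℝ))
        ≤ gnpExp n q (fun G => ∑ S ∈ orb (Equiv.Perm (Fin n)) J,
          if (S : Set (Sym2 (Fin n))) ⊆ G.edgeSet then (1 : ℝ) else 0) := by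
          apply gnpExp_nonneg_mono h0 h1
          intro G
          have := copyCount_le_orb i (subOf i H J) (fun v hv => hv) G
          rwa [im_subOf i hJ] at this
      _ = ∑ S ∈ orb (Equiv.Perm (Fin n)) J, q ^ S.card := by
          rw [gnpExp_sum]
          apply Finset.sum_congr rfl
          intro S hS
          apply gnpExp_subset
          obtain ⟨g, -, rfl⟩ := Finset.mem_image.1 hS
          intro e he
          obtain ⟨e', he', rfl⟩ := Finset.mem_smul_finset.1 he
          rw [smul_isDiag]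
          exact im_not_isDiag i e' (hJ he')
      _ = _ := by
          have : ∀ S ∈ orb (Equiv.Perm (Fin n)) J, q ^ S.card = q ^ J.card := by
            intro S hS
            obtain ⟨g, -, rfl⟩ := Finset.mem_image.1 hS
            rw [Finset.card_smul_finset]
          rw [Finset.sum_congr rfl this, Finset.sum_const, nsmul_eq_mul]
  have h4 := orb_card (Γ := Equiv.Perm (Fin n)) J
  have h5 : 0 ≤ fr (Equiv.Perm (Fin n)) J J := fr_nonneg _ _
  have h6 : 1 ≤ 2 * (((orb (Equiv.Perm (Fin n)) J).card : ℝ) * q ^ J.card) := by linarith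
  calc fr (Equiv.Perm (Fin n)) J J
      ≤ fr (Equiv.Perm (Fin n)) J J * (2 * (((orb (Equiv.Perm (Fin n)) J).card : ℝ) * q ^ J.card)) :=
        le_mul_of_one_le_right h5 h6
    _ = (((orb (Equiv.Perm (Fin n)) J).card : ℝ) * fr (Equiv.Perm (Fin n)) J J) * (2 * q ^ J.card) := by
        ring
    _ = 2 * q ^ J.card := by rw [h4, one_mul]

lemma fr_pos_self {J : Finset (Sym2 (Fin n))} : 0 < fr (Equiv.Perm (Fin n)) J J := by
  have h4 := orb_card (Γ := Equiv.Perm (Fin n)) J
  have h5 : 0 ≤ fr (Equiv.Perm (Fin n)) J J := fr_nonneg _ _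
  rcases h5.eq_or_lt with h | h
  · rw [← h] at h4; norm_num at h4
  · exact h

lemma gnpExp_one (f : SimpleGraph (Fin n) → ℝ) : gnpExp n 1 f = f ⊤ := by
  rw [gnpExp_eq, Finset.sum_eq_single univ]
  · have : (graphEquiv n).symm univ = ⊤ := by
      rw [← SimpleGraph.edgeSet_inj, edgeSet_graphEquiv_symm]
      ext e
      induction e using Sym2.ind with
      | _ a b => simp
    rw [this]
    simp
  · intro W _ hW
    have : Fintype.card (Pr n) - W.card ≠ 0 := by
      have h1 : W.card ≤ Fintype.card (Pr n) := Finset.card_le_univ W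
      have h2 : W.card ≠ Fintype.card (Pr n) := fun h => hW ((Finset.card_eq_iff_eq_univ W).1 h)
      omega
    rw [sub_self, zero_pow this]; simp
  · intro h; exact absurd (Finset.mem_univ _) h

include i in
lemma coe_contained_top (F : H.Subgraph) : F.coe.IsContained (⊤ : SimpleGraph (Fin n)) := by
  refine ⟨⟨⟨fun u => i u.1, ?_⟩, ?_⟩⟩
  · intro a b hab
    have : F.Adj a.1 b.1 := hab
    simpa using this.ne
  · intro a b h
    exact Subtype.ext (i.injective h)

include i in
lemma one_mem_pE (F : H.Subgraph) :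
    1 / 2 ≤ gnpExp n 1 (fun G => (G.copyCount F.coe : ℝ)) := by
  rw [gnpExp_one]
  have : 0 < (⊤ : SimpleGraph (Fin n)).copyCount F.coe :=
    SimpleGraph.copyCount_pos.2 (coe_contained_top i F)
  have h1 : (1 : ℝ) ≤ (⊤ : SimpleGraph (Fin n)).copyCount F.coe := by exact_mod_cast this
  linarith

end count

end P064
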