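import Mathlib
import Vale.Agent.P064.Graph

open Finset
open scoped Pointwise

namespace P064

attribute [local instance] permSym2

section bound

variable {n : ℕ} {V : Type} (i : V ↪ Fin n) {H : SimpleGraph V}

/-- The kernel estimate for the host graph. -/
lemma kappa (hn : 2 ≤ n) (hE : ∃ u v, H.Adj u v) {q : ℝ} (h0 : 0 ≤ q) (h1 : q ≤ 1)
    (hq : ∀ F : H.Subgraph, 1 / 2 ≤ gnpExp n q (fun G => (G.copyCount F.coe : ℝ))) :
    ∃ κ : ℝ, 0 < κ ∧ (∀ F : Finset (Sym2 (Fin n)),
      fr (Equiv.Perm (Fin n)) (im i H.edgeSet) F ≤ κ ^ F.card) ∧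
      κ ≤ 128 * Real.exp 10 * Real.log n * (1 + Real.log (1 + Real.log n)) ^ 2 * q := by
  set H0 := im i H.edgeSet with hH0
  have hne : H0.Nonempty := by
    obtain ⟨u, v, huv⟩ := hE
    exact ⟨s(i u, i v), (mem_im i _ _).2 ⟨s(u, v), huv, rfl⟩⟩
  have hc1 : 1 ≤ H0.card := Finset.card_pos.2 hne
  have hqpos : 0 < q := by
    rcases h0.eq_or_lt with h | h
    · exfalso
      have h2 := fr_le_of_pE i h0 h1 hq (Finset.Subset.refl H0)
      rw [← h, zero_pow (by omega), mul_zero] at h2
      exact absurd (fr_pos_self (J := H0)) (not_lt.2 h2)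
    · exact h
  have hcard : H0.card ≤ n ^ 2 := by
    have h2 : H0.card ≤ Fintype.card (Pr n) := by
      rw [← Finset.card_univ]
      have : H0 ⊆ (univ : Finset (Pr n)).map ⟨Subtype.val, Subtype.val_injective⟩ := by
        intro e he
        exact Finset.mem_map.2 ⟨⟨e, im_not_isDiag i e he⟩, Finset.mem_univ _, rfl⟩
      exact (Finset.card_le_card this).trans (by rw [Finset.card_map])
    rw [card_Pr] at h2
    refine h2.trans ?_
    rw [Nat.choose_two_right, sq]
    exact (Nat.div_le_self _ _).trans (Nat.mul_le_mul_left n (Nat.sub_le n 1))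
  have hnR : (2 : ℝ) ≤ n := by exact_mod_cast hn
  have hlog2 : (69 / 100 : ℝ) ≤ Real.log n := by
    have := Real.log_two_gt_d9
    have h3 : Real.log 2 ≤ Real.log n := Real.log_le_log (by norm_num) hnR
    linarith
  have hc1R : (1 : ℝ) ≤ H0.card := by exact_mod_cast hc1
  have hlogH : Real.log H0.card ≤ 2 * Real.log n := by
    calc Real.log H0.card ≤ Real.log ((n : ℝ) ^ 2) := by
          apply Real.log_le_log (by positivity)
          exact_mod_cast hcard
      _ = 2 * Real.log n := by rw [Real.log_pow]; norm_num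
  have hlogH0 : 0 ≤ Real.log H0.card := Real.log_nonneg hc1R
  set T : ℝ := 1 + Real.log H0.card with hT
  have hT1 : 1 ≤ T := by linarith
  have hTle : T ≤ 1 + 2 * Real.log n := by linarith
  have hT4 : T ≤ 4 * Real.log n := by linarith
  have hlT0 : 0 ≤ Real.log T := Real.log_nonneg hT1
  have hlT : Real.log T ≤ 1 + Real.log (1 + Real.log n) := by
    calc Real.log T ≤ Real.log (2 * (1 + Real.log n)) := by
          apply Real.log_le_log (by linarith)
          linarith
      _ = Real.log 2 + Real.log (1 + Real.log n) := by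
          rw [Real.log_mul (by norm_num) (by positivity)]
      _ ≤ _ := by
          have := Real.log_two_lt_d9
          linarith
  have hll : 0 ≤ Real.log (1 + Real.log n) := Real.log_nonneg (by linarith)
  have hU : ∀ U ⊆ H0, fr (Equiv.Perm (Fin n)) U U ≤ (2 * q) ^ U.card := by
    intro U hU
    rcases U.eq_empty_or_nonempty with rfl | hUne
    · simp [fr_empty]
    · have hU1 : 1 ≤ U.card := Finset.card_pos.2 hUne
      calc fr (Equiv.Perm (Fin n)) U U ≤ 2 * q ^ U.card := fr_le_of_pE i h0 h1 hq hU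
        _ ≤ 2 ^ U.card * q ^ U.card := by
            gcongr
            calc (2 : ℝ) = 2 ^ 1 := by norm_num
              _ ≤ 2 ^ U.card := by gcongr; norm_num
        _ = (2 * q) ^ U.card := by rw [mul_pow]
  have hcore := core (Γ := Equiv.Perm (Fin n)) (q := 2 * q) (by positivity) hU hT1 (by
    rw [hT, add_sub_cancel_left, Real.exp_log (by positivity)])
  refine ⟨4 * (Real.exp 10 * (T * (1 + Real.log T) ^ 2)) * (2 * q), by positivity, hcore, ?_⟩
  have e1 : (1 + Real.log T) ^ 2 ≤ 4 * (1 + Real.log (1 + Real.log n)) ^ 2 := by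
    calc (1 + Real.log T) ^ 2 ≤ (2 * (1 + Real.log (1 + Real.log n))) ^ 2 := by
          gcongr; linarith
      _ = _ := by ring
  calc 4 * (Real.exp 10 * (T * (1 + Real.log T) ^ 2)) * (2 * q)
      ≤ 4 * (Real.exp 10 * ((4 * Real.log n) * (4 * (1 + Real.log (1 + Real.log n)) ^ 2)))
        * (2 * q) := by gcongr
    _ = _ := by ring

lemma contained_of_subset {G : SimpleGraph (Fin n)} {g : Equiv.Perm (Fin n)}
    (h : ((g • im i H.edgeSet : Finset (Sym2 (Fin n))) : Set (Sym2 (Fin n))) ⊆ G.edgeSet) :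
    H.IsContained G := by
  refine ⟨⟨⟨fun u => g (i u), ?_⟩, ?_⟩⟩
  · intro a b hab
    have : g • (s(i a, i b) : Sym2 (Fin n)) ∈ G.edgeSet := by
      apply h
      rw [Finset.mem_coe]
      exact Finset.smul_mem_smul_finset ((mem_im i _ _).2 ⟨s(a, b), hab, rfl⟩)
    exact this
  · intro a b hab
    exact i.injective (g.injective hab)

include i in
lemma one_mem_pc : 1 / 2 ≤ gnpProb n 1 (fun G => 0 < G.copyCount H) := by
  classical
  unfold gnpProb
  rw [gnpExp_one]
  have : 0 < (⊤ : SimpleGraph (Fin n)).copyCount H := by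
    rw [SimpleGraph.copyCount_pos]
    refine ⟨⟨⟨fun u => i u, ?_⟩, ?_⟩⟩
    · intro a b hab
      simpa using hab.ne
    · exact i.injective
  rw [if_pos this]; norm_num

/-- From a spread estimate to the threshold. -/
lemma pc_le_kappa {C : ℝ} (hC : 0 < C)
    (hsp : ∀ {I X : Type} [Fintype I] [Nonempty I]
      [Fintype X] [DecidableEq X] (A : I → Finset X) (l : ℕ), 2 ≤ l → (∀ i, (A i).card ≤ l) →
      ∀ κ : ℝ, 0 < κ →
      (∀ S : Finset X, ((Finset.univ.filter (fun i => S ⊆ A i)).card : ℝ)
        ≤ κ ^ S.card * Fintype.card I) →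
      ∀ p : ℝ, p ≤ 1 → C * κ * Real.log l ≤ p →
      1 / 2 ≤ ∑ W : Finset X, (if ∃ i, A i ⊆ W then
        p ^ W.card * (1 - p) ^ (Fintype.card X - W.card) else 0))
    (hn : 2 ≤ n) {κ : ℝ} (hκ : 0 < κ) (hk : ∀ F : Finset (Sym2 (Fin n)),
      fr (Equiv.Perm (Fin n)) (im i H.edgeSet) F ≤ κ ^ F.card) :
    pc n H ≤ 2 * C * κ * Real.log n := by
  classical
  have hnR : (2 : ℝ) ≤ n := by exact_mod_cast hn
  have hlogn : 0 < Real.log n := Real.log_pos (by linarith)
  set H0 := im i H.edgeSet with hH0
  have hbdd : BddBelow {p : ℝ | 0 ≤ p ∧ p ≤ 1 ∧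
      1 / 2 ≤ gnpProb n p (fun G => 0 < G.copyCount H)} := ⟨0, fun p hp => hp.1⟩
  by_cases hp1 : 2 * C * κ * Real.log n ≤ 1
  swap
  · have : pc n H ≤ 1 := csInf_le hbdd ⟨by norm_num, le_rfl, one_mem_pc i⟩
    linarith
  · set p := 2 * C * κ * Real.log n with hp
    have hp0 : 0 ≤ p := by positivity
    have hcard : H0.card ≤ n ^ 2 := by
      have h2 : H0.card ≤ Fintype.card (Pr n) := by
        rw [← Finset.card_univ]
        have : H0 ⊆ (univ : Finset (Pr n)).map ⟨Subtype.val, Subtype.val_injective⟩ := by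
          intro e he
          exact Finset.mem_map.2 ⟨⟨e, im_not_isDiag i e he⟩, Finset.mem_univ _, rfl⟩
        exact (Finset.card_le_card this).trans (by rw [Finset.card_map])
      rw [card_Pr] at h2
      refine h2.trans ?_
      rw [Nat.choose_two_right, sq]
      exact (Nat.div_le_self _ _).trans (Nat.mul_le_mul_left n (Nat.sub_le n 1))
    have h := hsp (I := Equiv.Perm (Fin n)) (X := Pr n)
      (fun g => univ.filter (fun e : Pr n => e.1 ∈ g • H0)) (n ^ 2) (by nlinarith) (by
        intro g
        refine le_trans ?_ hcard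
        rw [← Finset.card_smul_finset g H0]
        apply Finset.card_le_card_of_injOn (fun e : Pr n => e.1)
        · intro e he
          exact Finset.mem_coe.2 (Finset.mem_filter.1 (Finset.mem_coe.1 he)).2
        · intro a _ b _ hab
          exact Subtype.ext hab) κ hκ (by
        intro S
        have hS : ∀ g : Equiv.Perm (Fin n), (S ⊆ univ.filter (fun e : Pr n => e.1 ∈ g • H0))
            ↔ g⁻¹ • (S.map ⟨Subtype.val, Subtype.val_injective⟩) ⊆ H0 := by
          intro g
          rw [← Finset.subset_smul_finset_iff]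
          constructor
          · intro hh e he
            obtain ⟨a, ha, rfl⟩ := Finset.mem_map.1 he
            simpa using hh ha
          · intro hh a ha
            simpa using hh (Finset.mem_map_of_mem ⟨Subtype.val, Subtype.val_injective⟩ ha)
        have h2 := hk (S.map ⟨Subtype.val, Subtype.val_injective⟩)
        rw [Finset.card_map] at h2
        have hc : (0 : ℝ) < Fintype.card (Equiv.Perm (Fin n)) := by
          exact_mod_cast Fintype.card_pos
        unfold fr at h2
        rw [div_le_iff₀ hc] at h2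
        refine le_trans (le_of_eq ?_) h2
        rw [Finset.card_filter]
        push_cast
        apply Fintype.sum_equiv (Equiv.inv (Equiv.Perm (Fin n)))
        intro g
        by_cases hg : S ⊆ univ.filter (fun e : Pr n => e.1 ∈ g • H0)
        · rw [if_pos hg, if_pos]
          exact (hS g).1 hg
        · rw [if_neg hg, if_neg]
          exact fun h' => hg ((hS g).2 h')) p hp1 (by
        push_cast
        rw [Real.log_pow, hp]
        apply le_of_eq
        push_cast
        ring)
    apply csInf_le hbdd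
    refine ⟨hp0, hp1, h.trans ?_⟩
    unfold gnpProb
    rw [gnpExp_eq]
    apply Finset.sum_le_sum
    intro W _
    have h1p : 0 ≤ 1 - p := by linarith
    split_ifs with h3 h4 h4
    · rw [mul_one]
    · exfalso
      apply h4
      rw [SimpleGraph.copyCount_pos]
      obtain ⟨g, hg⟩ := h3
      apply contained_of_subset i (g := g)
      intro e he
      rw [edgeSet_graphEquiv_symm]
      have hd : ¬ e.IsDiag := by
        obtain ⟨e', he', rfl⟩ := Finset.mem_smul_finset.1 (Finset.mem_coe.1 he)
        rw [smul_isDiag]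
        exact im_not_isDiag i e' he'
      exact ⟨⟨e, hd⟩, hg (Finset.mem_filter.2 ⟨Finset.mem_univ _, Finset.mem_coe.1 he⟩), rfl⟩
    · positivity
    · positivity

end bound

/-- **Main bound.** -/
theorem pc_le_pE : ∃ C : ℝ, 0 < C ∧ ∀ n : ℕ, 2 ≤ n → ∀ (V : Type) [Fintype V]
    (H : SimpleGraph V), Fintype.card V ≤ n → (∃ u v, H.Adj u v) →
    pc n H ≤ C * Real.log n ^ 2 * (1 + Real.log (1 + Real.log n)) ^ 2 * pE n H := by
  obtain ⟨C, hC, hsp⟩ := spread_threshold
  refine ⟨256 * Real.exp 10 * C, by positivity, ?_⟩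
  intro n hn V _ H hV hE
  obtain ⟨i⟩ : Nonempty (V ↪ Fin n) := by
    apply Function.Embedding.nonempty_of_card_le
    simpa using hV
  have hnR : (2 : ℝ) ≤ n := by exact_mod_cast hn
  have hlogn : 0 < Real.log n := Real.log_pos (by linarith)
  have hll : 0 ≤ Real.log (1 + Real.log n) := Real.log_nonneg (by linarith)
  set K := 256 * Real.exp 10 * C * Real.log n ^ 2 * (1 + Real.log (1 + Real.log n)) ^ 2 with hK
  have hK0 : 0 < K := by positivity
  have h1 : pc n H / K ≤ pE n H := by
    apply le_csInf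
    · exact ⟨1, by norm_num, le_rfl, fun F => one_mem_pE i F⟩
    · rintro q ⟨h0, h1, hq⟩
      obtain ⟨κ, hκ, hk, hle⟩ := kappa i hn hE h0 h1 hq
      have h2 := pc_le_kappa i (H := H) hC hsp hn hκ hk
      rw [div_le_iff₀ hK0]
      calc pc n H ≤ 2 * C * κ * Real.log n := h2
        _ ≤ 2 * C * (128 * Real.exp 10 * Real.log n * (1 + Real.log (1 + Real.log n)) ^ 2 * q)
            * Real.log n := by gcongr
        _ = q * K := by rw [hK]; ring
  rw [div_le_iff₀ hK0] at h1
  linarith

end P064
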