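import Mathlib
import Vale.Agent.P064.Graph

/-!
# The modified expectation threshold
-/

open Finset
open scoped Pointwise

namespace P064

attribute [local instance] permSym2

section codes

variable {n : ℕ} {V : Type} (i : V ↪ Fin n) {H : SimpleGraph V}

/-- Vertex set and edge set of the image of a subgraph. -/
noncomputable def code (F : H.Subgraph) : Set (Fin n) × Finset (Sym2 (Fin n)) :=
  (i '' F.verts, im i F.edgeSet)

open scoped Classical in
/-- All codes of copies of `F` in the complete graph. -/
noncomputable def codes (F : H.Subgraph) : Finset (Set (Fin n) × Finset (Sym2 (Fin n))) :=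
  univ.image (fun g : Equiv.Perm (Fin n) => g • code i F)

lemma mem_codes (F : H.Subgraph) (c : Set (Fin n) × Finset (Sym2 (Fin n))) :
    c ∈ codes i F ↔ ∃ g : Equiv.Perm (Fin n), g • code i F = c := by
  simp [codes]

open scoped Classical in
/-- Orbit counting for the codes. -/
lemma card_codes_filter (F : H.Subgraph) (H0 : Finset (Sym2 (Fin n))) :
    (((codes i F).filter (fun c => c.2 ⊆ H0)).card : ℝ)
      = ((codes i F).card : ℝ) * fr (Equiv.Perm (Fin n)) H0 (im i F.edgeSet) := by
  set c0 := code i F with hc0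
  -- the number of `g` with `g • c0 = c` does not depend on `c`
  have hstab : ∀ c ∈ codes i F, (∑ g : Equiv.Perm (Fin n), if g • c0 = c then (1 : ℝ) else 0)
      = ∑ g : Equiv.Perm (Fin n), if g • c0 = c0 then (1 : ℝ) else 0 := by
    intro c hc
    obtain ⟨g0, rfl⟩ := (mem_codes i F c).1 hc
    symm
    apply Fintype.sum_equiv (Equiv.mulLeft g0)
    intro g
    have e : (g • c0 = c0) ↔ (g0 * g) • c0 = g0 • c0 := by
      rw [mul_smul]
      exact (smul_left_cancel_iff g0).symm
    by_cases h' : g • c0 = c0
    · rw [if_pos h', Equiv.coe_mulLeft, if_pos (e.1 h')]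
    · rw [if_neg h', Equiv.coe_mulLeft, if_neg (fun h'' => h' (e.2 h''))]
  set s : ℝ := ∑ g : Equiv.Perm (Fin n), if g • c0 = c0 then (1 : ℝ) else 0 with hs
  have hspos : 0 < s := by
    rw [hs]
    refine Finset.sum_pos' (fun g _ => by split_ifs <;> norm_num) ⟨1, mem_univ _, ?_⟩
    rw [one_smul, if_pos rfl]
    norm_num
  have hgen : ∀ P : Set (Fin n) × Finset (Sym2 (Fin n)) → Prop,
      (∑ g : Equiv.Perm (Fin n), if P (g • c0) then (1 : ℝ) else 0)
        = s * ((codes i F).filter P).card := by
    intro P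
    have h1 : ∀ g : Equiv.Perm (Fin n), (if P (g • c0) then (1 : ℝ) else 0)
        = ∑ c ∈ (codes i F).filter P, if g • c0 = c then (1 : ℝ) else 0 := by
      intro g
      rw [Finset.sum_ite_eq]
      by_cases h : P (g • c0)
      · rw [if_pos h, if_pos]
        exact mem_filter.2 ⟨(mem_codes i F _).2 ⟨g, rfl⟩, h⟩
      · rw [if_neg h, if_neg]
        intro h'
        exact h (mem_filter.1 h').2
    rw [Finset.sum_congr rfl (fun g _ => h1 g), Finset.sum_comm]
    rw [Finset.sum_congr rfl (fun c hc => hstab c (mem_filter.1 hc).1), Finset.sum_const,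
      nsmul_eq_mul, mul_comm]
  have hc : (0 : ℝ) < Fintype.card (Equiv.Perm (Fin n)) := by exact_mod_cast Fintype.card_pos
  have hall := hgen (fun _ => True)
  simp only [if_true, Finset.filter_true, Finset.sum_const, Finset.card_univ, nsmul_eq_mul,
    mul_one] at hall
  have hH := hgen (fun c => c.2 ⊆ H0)
  have hsm : ∀ g : Equiv.Perm (Fin n), (g • c0).2 = g • im i F.edgeSet := fun g => rfl
  simp only [hsm] at hH
  have hcodes : (0 : ℝ) < (codes i F).card := by
    rw [hall] at hc
    exact pos_of_mul_pos_right hc hspos.le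
  unfold fr
  rw [hH, hall]
  field_simp
  congr!

lemma smul_im_pair (F : H.Subgraph) (g : Equiv.Perm (Fin n)) (a b : V) :
    s(g (i a), g (i b)) ∈ g • im i F.edgeSet ↔ F.Adj a b := by
  rw [← smul_mk, Finset.smul_mem_smul_finset_iff, mem_im]
  constructor
  · rintro ⟨e', he', h⟩
    induction e' using Sym2.ind with
    | _ u v =>
      rw [Sym2.map_mk, Sym2.eq_iff] at h
      have huv : F.Adj u v := he'
      rcases h with ⟨h1, h2⟩ | ⟨h1, h2⟩
      · rw [← i.injective h1, ← i.injective h2]; exact huv
      · rw [← i.injective h1, ← i.injective h2]; exact huv.symm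
  · intro h
    exact ⟨s(a, b), h, rfl⟩

open scoped Classical in
/-- The copies in `G` include all codes whose edges lie in `G`. -/
lemma codes_le_copyCount (F : H.Subgraph) (G : SimpleGraph (Fin n)) :
    ((codes i F).filter (fun c => (c.2 : Set (Sym2 (Fin n))) ⊆ G.edgeSet)).card
      ≤ G.copyCount F.coe := by
  rw [SimpleGraph.copyCount]
  apply Finset.card_le_card_of_surjOn
    (fun G' : G.Subgraph => ((G'.verts, ef G') : Set (Fin n) × Finset (Sym2 (Fin n))))
  intro c hc
  rw [mem_coe, mem_filter] at hc
  obtain ⟨hc1, hc2⟩ := hc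
  obtain ⟨g, rfl⟩ := (mem_codes i F c).1 hc1
  have hE : (g • code i F).2 = g • im i F.edgeSet := rfl
  have hVt : (g • code i F).1 = g • (i '' F.verts) := rfl
  have hmemV : ∀ u ∈ F.verts, g (i u) ∈ g • (i '' F.verts) := fun u hu =>
    ⟨i u, ⟨u, hu, rfl⟩, rfl⟩
  -- endpoints of an edge
  have hend : ∀ a b, s(a, b) ∈ g • im i F.edgeSet → ∃ u v, F.Adj u v ∧ g (i u) = a ∧
      g (i v) = b := by
    intro a b h
    rw [Finset.mem_smul_finset] at h
    obtain ⟨e, he, hge⟩ := h
    rw [mem_im] at he
    obtain ⟨e', he', rfl⟩ := he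
    induction e' using Sym2.ind with
    | _ u v =>
      have huv : F.Adj u v := he'
      rw [Sym2.map_mk, smul_mk, Sym2.eq_iff] at hge
      rcases hge with ⟨h1, h2⟩ | ⟨h1, h2⟩
      · exact ⟨u, v, huv, h1, h2⟩
      · exact ⟨v, u, huv.symm, h2, h1⟩
  let G' : G.Subgraph :=
    { verts := g • (i '' F.verts)
      Adj := fun a b => s(a, b) ∈ g • im i F.edgeSet
      adj_sub := by
        intro a b h
        have : s(a, b) ∈ G.edgeSet := hc2 (by rw [mem_coe, hE]; exact h)
        exact this
      edge_vert := by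
        intro a b h
        obtain ⟨u, v, huv, rfl, rfl⟩ := hend a b h
        exact hmemV u huv.fst_mem
      symm := ⟨by
        intro a b h
        rw [Sym2.eq_swap]
        exact h⟩ }
  have hiso : Nonempty (F.coe ≃g G'.coe) := by
    let f : F.verts → G'.verts := fun u => ⟨g (i u.1), hmemV u.1 u.2⟩
    have hf : Function.Bijective f := by
      constructor
      · intro a b hab
        have : g (i a.1) = g (i b.1) := congrArg Subtype.val hab
        exact Subtype.ext (i.injective (g.injective this))
      · intro xx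
        have hx : xx.1 ∈ g • (i '' F.verts) := xx.2
        rw [Set.mem_smul_set] at hx
        obtain ⟨y, hy, hyx⟩ := hx
        rw [Set.mem_image] at hy
        obtain ⟨u, hu, huy⟩ := hy
        refine ⟨⟨u, hu⟩, Subtype.ext ?_⟩
        show g (i u) = xx.1
        rw [huy, ← hyx]
        rfl
    refine ⟨⟨Equiv.ofBijective f hf, ?_⟩⟩
    intro a b
    exact smul_im_pair i F g a.1 b.1
  refine ⟨G', ?_, ?_⟩
  · simpa using hiso
  · refine Prod.ext rfl ?_
    ext e
    induction e using Sym2.ind with
    | _ a b =>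
      rw [mem_ef, hE]

open scoped Classical in
/-- Copies of `F` in `H` give codes inside the image of `H`. -/
lemma copyCount_le_codes [Fintype V] (F : H.Subgraph) :
    H.copyCount F.coe
      ≤ ((codes i F).filter (fun c => c.2 ⊆ im i H.edgeSet)).card := by
  rw [SimpleGraph.copyCount]
  apply Finset.card_le_card_of_injOn (fun H' : H.Subgraph => code i H')
  · intro H' hH'
    have hH2 : Nonempty (F.coe ≃g H'.coe) := by simpa using hH'
    obtain ⟨φ⟩ := hH2
    rw [mem_coe, mem_filter]
    refine ⟨?_, im_mono i H'.edgeSet_subset⟩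
    rw [mem_codes]
    let e : {x // x ∈ i '' F.verts} ≃ {x // x ∈ i '' H'.verts} :=
      (Equiv.Set.image i F.verts i.injective).symm.trans
        (φ.toEquiv.trans (Equiv.Set.image i H'.verts i.injective))
    have hπ : ∀ u (hu : u ∈ F.verts), e.extendSubtype (i u) = i (φ ⟨u, hu⟩ : V) := by
      intro u hu
      rw [e.extendSubtype_apply_of_mem (i u) ⟨u, hu, rfl⟩]
      have h1 : (Equiv.Set.image i F.verts i.injective).symm ⟨i u, ⟨u, hu, rfl⟩⟩ = ⟨u, hu⟩ := by
        rw [Equiv.symm_apply_eq]
        rfl
      change ((Equiv.Set.image i H'.verts i.injective (φ ((Equiv.Set.image i F.verts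
        i.injective).symm ⟨i u, ⟨u, hu, rfl⟩⟩)) : {x // x ∈ i '' H'.verts}) : Fin n) = _
      rw [h1]
      rfl
    refine ⟨e.extendSubtype, Prod.ext ?_ ?_⟩
    · show e.extendSubtype • (i '' F.verts) = i '' H'.verts
      ext x
      constructor
      · rintro ⟨y, ⟨u, hu, rfl⟩, rfl⟩
        refine ⟨(φ ⟨u, hu⟩ : V), (φ ⟨u, hu⟩).2, ?_⟩
        exact (hπ u hu).symm
      · rintro ⟨w, hw, rfl⟩
        refine ⟨i (φ.symm ⟨w, hw⟩ : V), ⟨_, (φ.symm ⟨w, hw⟩).2, rfl⟩, ?_⟩
        have := hπ (φ.symm ⟨w, hw⟩ : V) (φ.symm ⟨w, hw⟩).2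
        simpa using this
    · show e.extendSubtype • im i F.edgeSet = im i H'.edgeSet
      ext x
      constructor
      · intro hx
        rw [Finset.mem_smul_finset] at hx
        obtain ⟨s, hs, rfl⟩ := hx
        rw [mem_im] at hs
        obtain ⟨e', he', rfl⟩ := hs
        induction e' using Sym2.ind with
        | _ u v =>
          have huv : F.Adj u v := he'
          rw [Sym2.map_mk, smul_mk, hπ u huv.fst_mem, hπ v huv.snd_mem, mem_im]
          refine ⟨s((φ ⟨u, huv.fst_mem⟩ : V), (φ ⟨v, huv.snd_mem⟩ : V)), ?_, rfl⟩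
          have := φ.map_rel_iff (a := ⟨u, huv.fst_mem⟩) (b := ⟨v, huv.snd_mem⟩)
          exact this.2 huv
      · intro hx
        rw [mem_im] at hx
        obtain ⟨e', he', rfl⟩ := hx
        induction e' using Sym2.ind with
        | _ a b =>
          have hab : H'.Adj a b := he'
          set u := φ.symm ⟨a, hab.fst_mem⟩ with hu
          set v := φ.symm ⟨b, hab.snd_mem⟩ with hv
          have huv : F.Adj u v := by
            have := φ.symm.map_rel_iff (a := ⟨a, hab.fst_mem⟩) (b := ⟨b, hab.snd_mem⟩)
            exact this.2 hab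
          rw [Finset.mem_smul_finset]
          refine ⟨s(i u, i v), (mem_im i _ _).2 ⟨s((u : V), (v : V)), huv, rfl⟩, ?_⟩
          rw [smul_mk, hπ u u.2, hπ v v.2]
          simp [hu, hv]
  · intro H1 _ H2 _ h12
    simp only [code, Prod.mk.injEq] at h12
    have hv : H1.verts = H2.verts := i.injective.image_injective h12.1
    have hA : ∀ (K : H.Subgraph) a b, s(i a, i b) ∈ im i K.edgeSet ↔ K.Adj a b := by
      intro K a b
      have := smul_im_pair i K 1 a b
      simpa using this
    ext x y
    · rw [hv]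
    · rw [← hA H1, ← hA H2, h12.2]

open scoped Classical in
/-- If all `fr`-densities are at most `x ^ |F|` then `pEt ≤ x`. -/
theorem pEt_le_of [Fintype V] (x : ℝ) (h0 : 0 ≤ x) (h1 : x ≤ 1)
    (h : ∀ F : H.Subgraph, fr (Equiv.Perm (Fin n)) (im i H.edgeSet) (im i F.edgeSet)
      ≤ x ^ F.edgeSet.ncard) : pEt n H ≤ x := by
  unfold pEt
  apply csInf_le ⟨0, fun y hy => hy.1⟩
  refine ⟨h0, h1, fun F => ?_⟩
  have hcard : (im i F.edgeSet).card = F.edgeSet.ncard := by
    have : (F.edgeSet).ncard = (Sym2.map i '' F.edgeSet).ncard :=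
      (Set.ncard_image_of_injective _ (Sym2.map.injective i.injective)).symm
    rw [this, ← Set.ncard_coe_finset]
    congr 1
    ext e
    rw [mem_coe, mem_im]
    rfl
  have hA : (H.copyCount F.coe : ℝ) ≤ ((codes i F).card : ℝ) * x ^ F.edgeSet.ncard := by
    calc (H.copyCount F.coe : ℝ)
        ≤ (((codes i F).filter (fun c => c.2 ⊆ im i H.edgeSet)).card : ℝ) := by
          exact_mod_cast copyCount_le_codes i F
      _ = ((codes i F).card : ℝ) * fr (Equiv.Perm (Fin n)) (im i H.edgeSet) (im i F.edgeSet) :=
          card_codes_filter i F _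
      _ ≤ _ := by
          gcongr
          exact h F
  have hB : ((codes i F).card : ℝ) * x ^ F.edgeSet.ncard
      ≤ gnpExp n x (fun G => (G.copyCount F.coe : ℝ)) := by
    calc ((codes i F).card : ℝ) * x ^ F.edgeSet.ncard
        = ∑ c ∈ codes i F, x ^ c.2.card := by
          rw [Finset.sum_congr rfl (g := fun _ => x ^ F.edgeSet.ncard), Finset.sum_const,
            nsmul_eq_mul]
          intro c hc
          obtain ⟨g, rfl⟩ := (mem_codes i F c).1 hc
          have : (g • code i F).2 = g • im i F.edgeSet := rfl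
          rw [this, Finset.card_smul_finset, hcard]
      _ = gnpExp n x (fun G => ∑ c ∈ codes i F,
          if (c.2 : Set (Sym2 (Fin n))) ⊆ G.edgeSet then (1 : ℝ) else 0) := by
          rw [gnpExp_sum]
          apply Finset.sum_congr rfl
          intro c hc
          symm
          apply gnpExp_subset
          obtain ⟨g, rfl⟩ := (mem_codes i F c).1 hc
          have : (g • code i F).2 = g • im i F.edgeSet := rfl
          rw [this]
          intro e he
          obtain ⟨e', he', rfl⟩ := Finset.mem_smul_finset.1 he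
          rw [smul_isDiag]
          exact im_not_isDiag i e' (im_mono i F.edgeSet_subset he')
      _ ≤ _ := by
          apply gnpExp_nonneg_mono h0 h1
          intro G
          rw [← Finset.sum_filter, Finset.sum_const, nsmul_eq_mul, mul_one]
          exact_mod_cast codes_le_copyCount i F G
  have hC : (0 : ℝ) ≤ H.copyCount F.coe := by positivity
  linarith

end codes

end P064
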