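import Mathlib
import Vale.Agent.P064.Bound
import Vale.Agent.P064.Tilde

open Finset
open scoped Pointwise

namespace P064

attribute [local instance] permSym2

lemma fr_le_one {n : ℕ} (G U : Finset (Sym2 (Fin n))) :
    fr (Equiv.Perm (Fin n)) G U ≤ 1 := by
  unfold fr
  have hc : (0 : ℝ) < Fintype.card (Equiv.Perm (Fin n)) := by exact_mod_cast Fintype.card_pos
  rw [div_le_one hc]
  calc (∑ g : Equiv.Perm (Fin n), if g • U ⊆ G then (1 : ℝ) else 0)
      ≤ ∑ g : Equiv.Perm (Fin n), (1 : ℝ) := by
        apply Finset.sum_le_sum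
        intro g _
        split_ifs <;> norm_num
    _ = _ := by simp

lemma card_im {n : ℕ} {V : Type} (i : V ↪ Fin n) {H : SimpleGraph V} (F : H.Subgraph) :
    (im i F.edgeSet).card = F.edgeSet.ncard := by
  have h : ((im i F.edgeSet : Finset (Sym2 (Fin n))) : Set (Sym2 (Fin n)))
      = Sym2.map i '' F.edgeSet := by
    ext e
    rw [Finset.mem_coe, mem_im]
    rfl
  rw [← Set.ncard_coe_finset, h]
  exact Set.ncard_image_of_injective _ (Sym2.map.injective i.injective)

/-- **Fractional part.** -/
theorem pEt_le_pE : ∃ C : ℝ, 0 < C ∧ ∀ n : ℕ, 2 ≤ n → ∀ (V : Type) [Fintype V]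
    (H : SimpleGraph V), Fintype.card V ≤ n → (∃ u v, H.Adj u v) →
    pEt n H ≤ C * Real.log n * (1 + Real.log (1 + Real.log n)) ^ 2 * pE n H := by
  refine ⟨128 * Real.exp 10, by positivity, ?_⟩
  intro n hn V _ H hV hE
  obtain ⟨i⟩ : Nonempty (V ↪ Fin n) := by
    apply Function.Embedding.nonempty_of_card_le
    simpa using hV
  have hnR : (2 : ℝ) ≤ n := by exact_mod_cast hn
  have hlogn : 0 < Real.log n := Real.log_pos (by linarith)
  have hll : 0 ≤ Real.log (1 + Real.log n) := Real.log_nonneg (by linarith)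
  set K := 128 * Real.exp 10 * Real.log n * (1 + Real.log (1 + Real.log n)) ^ 2 with hK
  have hK0 : 0 < K := by positivity
  have h1 : pEt n H / K ≤ pE n H := by
    apply le_csInf
    · exact ⟨1, by norm_num, le_rfl, fun F => one_mem_pE i F⟩
    · rintro q ⟨h0, h1, hq⟩
      obtain ⟨κ, hκ, hk, hle⟩ := kappa i hn hE h0 h1 hq
      rw [div_le_iff₀ hK0]
      have h2 : pEt n H ≤ κ := by
        by_cases hκ1 : κ ≤ 1
        · apply pEt_le_of i κ hκ.le hκ1
          intro F
          rw [← card_im i F]
          exact hk _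
        · have : pEt n H ≤ 1 := by
            apply pEt_le_of i 1 (by norm_num) le_rfl
            intro F
            rw [one_pow]
            exact fr_le_one _ _
          linarith
      calc pEt n H ≤ κ := h2
        _ ≤ K * q := hle
        _ = q * K := mul_comm _ _
  rw [div_le_iff₀ hK0] at h1
  linarith

end P064
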